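import Vale.Agent.P322.Scalar.Box.Common

/-!
A subdivision checks when both halves check.
-/

namespace Vale.Agent.P322.Box

variable {P : Type} {chk : List P → ℚ → ℚ → ℚ → ℚ → Bool} {tbl : List Row}

lemma okTree_splitS {v sl sh dl dh : ℚ} {l r : Tree P}
    (h₁ : okTree chk tbl l sl v dl dh = true) (h₂ : okTree chk tbl r v sh dl dh = true) :
    okTree chk tbl (.splitS v l r) sl sh dl dh = true := by
  simp only [okTree, h₁, h₂, Bool.and_self]

lemma okTree_splitD {v sl sh dl dh : ℚ} {l r : Tree P}
    (h₁ : okTree chk tbl l sl sh dl v = true) (h₂ : okTree chk tbl r sl sh v dh = true) :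
    okTree chk tbl (.splitD v l r) sl sh dl dh = true := by
  simp only [okTree, h₁, h₂, Bool.and_self]

end Vale.Agent.P322.Box
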