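import Vale.Agent.P322.Scalar.Box.DataOne
import Vale.Agent.P322.Scalar.Box.Tables
import Vale.Agent.P322.Scalar.Box.TreeJoin

/-!
The kernel evaluates the box certificates, a few boxes at a time.
-/

namespace Vale.Agent.P322.Box

theorem treeOneA_7_ok : okTree chkOne cornerTableOne treeOneA_7 (5494/10000) (6043/10000) (18/100) (2363/10000) = true := by
  decide +kernel

theorem treeOneA_8_ok : okTree chkOne cornerTableOne treeOneA_8 (6043/10000) (654/1000) (18/100) (2363/10000) = true := by
  decide +kernel

theorem treeOneA_5_ok : okTree chkOne cornerTableOne treeOneA_5 (5494/10000) (654/1000) (18/100) (2363/10000) = true :=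
  okTree_splitS treeOneA_7_ok treeOneA_8_ok

theorem treeOneA_6_ok : okTree chkOne cornerTableOne treeOneA_6 (5494/10000) (654/1000) (2363/10000) (117/400) = true := by
  decide +kernel

theorem treeOneA_3_ok : okTree chkOne cornerTableOne treeOneA_3 (5494/10000) (654/1000) (18/100) (117/400) = true :=
  okTree_splitD treeOneA_5_ok treeOneA_6_ok

theorem treeOneA_4_ok : okTree chkOne cornerTableOne treeOneA_4 (5494/10000) (654/1000) (117/400) (81/200) = true := by
  decide +kernel

theorem treeOneA_1_ok : okTree chkOne cornerTableOne treeOneA_1 (5494/10000) (654/1000) (18/100) (81/200) = true :=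
  okTree_splitD treeOneA_3_ok treeOneA_4_ok

theorem treeOneA_9_ok : okTree chkOne cornerTableOne treeOneA_9 (5494/10000) (654/1000) (81/200) (207/400) = true := by
  decide +kernel

theorem treeOneA_15_ok : okTree chkOne cornerTableOne treeOneA_15 (5494/10000) (6043/10000) (207/400) (5457/10000) = true := by
  decide +kernel

theorem treeOneA_16_ok : okTree chkOne cornerTableOne treeOneA_16 (5494/10000) (6043/10000) (5457/10000) (2869/5000) = true := by
  decide +kernel

theorem treeOneA_13_ok : okTree chkOne cornerTableOne treeOneA_13 (5494/10000) (6043/10000) (207/400) (2869/5000) = true :=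
  okTree_splitD treeOneA_15_ok treeOneA_16_ok

theorem treeOneA_14_ok : okTree chkOne cornerTableOne treeOneA_14 (6043/10000) (654/1000) (207/400) (2869/5000) = true := by
  decide +kernel

theorem treeOneA_11_ok : okTree chkOne cornerTableOne treeOneA_11 (5494/10000) (654/1000) (207/400) (2869/5000) = true :=
  okTree_splitS treeOneA_13_ok treeOneA_14_ok

theorem treeOneA_17_ok : okTree chkOne cornerTableOne treeOneA_17 (5494/10000) (6043/10000) (2869/5000) (63/100) = true := by
  decide +kernel

theorem treeOneA_18_ok : okTree chkOne cornerTableOne treeOneA_18 (6043/10000) (654/1000) (2869/5000) (63/100) = true := by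
  decide +kernel

theorem treeOneA_12_ok : okTree chkOne cornerTableOne treeOneA_12 (5494/10000) (654/1000) (2869/5000) (63/100) = true :=
  okTree_splitS treeOneA_17_ok treeOneA_18_ok

theorem treeOneA_10_ok : okTree chkOne cornerTableOne treeOneA_10 (5494/10000) (654/1000) (207/400) (63/100) = true :=
  okTree_splitD treeOneA_11_ok treeOneA_12_ok

theorem treeOneA_2_ok : okTree chkOne cornerTableOne treeOneA_2 (5494/10000) (654/1000) (81/200) (63/100) = true :=
  okTree_splitD treeOneA_9_ok treeOneA_10_ok

theorem treeOneA_ok : okTree chkOne cornerTableOne treeOneA (5494/10000) (654/1000) (18/100) (63/100) = true :=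
  okTree_splitD treeOneA_1_ok treeOneA_2_ok

/-- the boxes over `[5494/10000, 654/1000] × [18/100, 654/1000]` -/
theorem checkOneA :
    okTree chkOne cornerTableOne (.splitD (63/100) treeOneA .skip) (5494/10000) (654/1000) (18/100) (654/1000) = true :=
  okTree_splitD treeOneA_ok (by decide +kernel)

theorem treeOneB_5_ok : okTree chkOne cornerTableOne treeOneB_5 (654/1000) (74/100) (22/100) (7/25) = true := by
  decide +kernel

theorem treeOneB_6_ok : okTree chkOne cornerTableOne treeOneB_6 (654/1000) (74/100) (7/25) (17/50) = true := by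
  decide +kernel

theorem treeOneB_3_ok : okTree chkOne cornerTableOne treeOneB_3 (654/1000) (74/100) (22/100) (17/50) = true :=
  okTree_splitD treeOneB_5_ok treeOneB_6_ok

theorem treeOneB_4_ok : okTree chkOne cornerTableOne treeOneB_4 (654/1000) (74/100) (17/50) (23/50) = true := by
  decide +kernel

theorem treeOneB_1_ok : okTree chkOne cornerTableOne treeOneB_1 (654/1000) (74/100) (22/100) (23/50) = true :=
  okTree_splitD treeOneB_3_ok treeOneB_4_ok

theorem treeOneB_7_ok : okTree chkOne cornerTableOne treeOneB_7 (654/1000) (74/100) (23/50) (29/50) = true := by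
  decide +kernel

theorem treeOneB_9_ok : okTree chkOne cornerTableOne treeOneB_9 (654/1000) (74/100) (29/50) (16/25) = true := by
  decide +kernel

theorem treeOneB_10_ok : okTree chkOne cornerTableOne treeOneB_10 (654/1000) (74/100) (16/25) (70/100) = true := by
  decide +kernel

theorem treeOneB_8_ok : okTree chkOne cornerTableOne treeOneB_8 (654/1000) (74/100) (29/50) (70/100) = true :=
  okTree_splitD treeOneB_9_ok treeOneB_10_ok

theorem treeOneB_2_ok : okTree chkOne cornerTableOne treeOneB_2 (654/1000) (74/100) (23/50) (70/100) = true :=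
  okTree_splitD treeOneB_7_ok treeOneB_8_ok

theorem treeOneB_ok : okTree chkOne cornerTableOne treeOneB (654/1000) (74/100) (22/100) (70/100) = true :=
  okTree_splitD treeOneB_1_ok treeOneB_2_ok

/-- the boxes over `[654/1000, 74/100] × [22/100, 74/100]` -/
theorem checkOneB :
    okTree chkOne cornerTableOne (.splitD (70/100) treeOneB .skip) (654/1000) (74/100) (22/100) (74/100) = true :=
  okTree_splitD treeOneB_ok (by decide +kernel)

theorem treeOneC_5_ok : okTree chkOne cornerTableOne treeOneC_5 (74/100) (2113/2500) (30/100) (7/16) = true := by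
  decide +kernel

theorem treeOneC_9_ok : okTree chkOne cornerTableOne treeOneC_9 (74/100) (3993/5000) (7/16) (5063/10000) = true := by
  decide +kernel

theorem treeOneC_10_ok : okTree chkOne cornerTableOne treeOneC_10 (74/100) (3993/5000) (5063/10000) (23/40) = true := by
  decide +kernel

theorem treeOneC_7_ok : okTree chkOne cornerTableOne treeOneC_7 (74/100) (3993/5000) (7/16) (23/40) = true :=
  okTree_splitD treeOneC_9_ok treeOneC_10_ok

theorem treeOneC_8_ok : okTree chkOne cornerTableOne treeOneC_8 (3993/5000) (2113/2500) (7/16) (23/40) = true := by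
  decide +kernel

theorem treeOneC_6_ok : okTree chkOne cornerTableOne treeOneC_6 (74/100) (2113/2500) (7/16) (23/40) = true :=
  okTree_splitS treeOneC_7_ok treeOneC_8_ok

theorem treeOneC_3_ok : okTree chkOne cornerTableOne treeOneC_3 (74/100) (2113/2500) (30/100) (23/40) = true :=
  okTree_splitD treeOneC_5_ok treeOneC_6_ok

theorem treeOneC_4_ok : okTree chkOne cornerTableOne treeOneC_4 (2113/2500) (9101/10000) (30/100) (23/40) = true := by
  decide +kernel

theorem treeOneC_1_ok : okTree chkOne cornerTableOne treeOneC_1 (74/100) (9101/10000) (30/100) (23/40) = true :=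
  okTree_splitS treeOneC_3_ok treeOneC_4_ok

theorem treeOneC_17_ok : okTree chkOne cornerTableOne treeOneC_17 (74/100) (3993/5000) (23/40) (3219/5000) = true := by
  decide +kernel

theorem treeOneC_18_ok : okTree chkOne cornerTableOne treeOneC_18 (74/100) (3993/5000) (3219/5000) (57/80) = true := by
  decide +kernel

theorem treeOneC_15_ok : okTree chkOne cornerTableOne treeOneC_15 (74/100) (3993/5000) (23/40) (57/80) = true :=
  okTree_splitD treeOneC_17_ok treeOneC_18_ok

theorem treeOneC_19_ok : okTree chkOne cornerTableOne treeOneC_19 (3993/5000) (2113/2500) (23/40) (3219/5000) = true := by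
  decide +kernel

theorem treeOneC_20_ok : okTree chkOne cornerTableOne treeOneC_20 (3993/5000) (2113/2500) (3219/5000) (57/80) = true := by
  decide +kernel

theorem treeOneC_16_ok : okTree chkOne cornerTableOne treeOneC_16 (3993/5000) (2113/2500) (23/40) (57/80) = true :=
  okTree_splitD treeOneC_19_ok treeOneC_20_ok

theorem treeOneC_13_ok : okTree chkOne cornerTableOne treeOneC_13 (74/100) (2113/2500) (23/40) (57/80) = true :=
  okTree_splitS treeOneC_15_ok treeOneC_16_ok

theorem treeOneC_14_ok : okTree chkOne cornerTableOne treeOneC_14 (74/100) (2113/2500) (57/80) (85/100) = true := by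
  decide +kernel

theorem treeOneC_11_ok : okTree chkOne cornerTableOne treeOneC_11 (74/100) (2113/2500) (23/40) (85/100) = true :=
  okTree_splitD treeOneC_13_ok treeOneC_14_ok

theorem treeOneC_21_ok : okTree chkOne cornerTableOne treeOneC_21 (2113/2500) (9101/10000) (23/40) (57/80) = true := by
  decide +kernel

theorem treeOneC_25_ok : okTree chkOne cornerTableOne treeOneC_25 (2113/2500) (4409/5000) (57/80) (7813/10000) = true := by
  decide +kernel

theorem treeOneC_26_ok : okTree chkOne cornerTableOne treeOneC_26 (2113/2500) (4409/5000) (7813/10000) (85/100) = true := by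
  decide +kernel

theorem treeOneC_23_ok : okTree chkOne cornerTableOne treeOneC_23 (2113/2500) (4409/5000) (57/80) (85/100) = true :=
  okTree_splitD treeOneC_25_ok treeOneC_26_ok

theorem treeOneC_24_ok : okTree chkOne cornerTableOne treeOneC_24 (4409/5000) (9101/10000) (57/80) (85/100) = true := by
  decide +kernel

theorem treeOneC_22_ok : okTree chkOne cornerTableOne treeOneC_22 (2113/2500) (9101/10000) (57/80) (85/100) = true :=
  okTree_splitS treeOneC_23_ok treeOneC_24_ok

theorem treeOneC_12_ok : okTree chkOne cornerTableOne treeOneC_12 (2113/2500) (9101/10000) (23/40) (85/100) = true :=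
  okTree_splitD treeOneC_21_ok treeOneC_22_ok

theorem treeOneC_2_ok : okTree chkOne cornerTableOne treeOneC_2 (74/100) (9101/10000) (23/40) (85/100) = true :=
  okTree_splitS treeOneC_11_ok treeOneC_12_ok

theorem treeOneC_ok : okTree chkOne cornerTableOne treeOneC (74/100) (9101/10000) (30/100) (85/100) = true :=
  okTree_splitD treeOneC_1_ok treeOneC_2_ok

/-- the boxes over `[74/100, 9101/10000] × [30/100, 9101/10000]` -/
theorem checkOneC :
    okTree chkOne cornerTableOne (.splitD (85/100) treeOneC .skip) (74/100) (9101/10000) (30/100) (9101/10000) = true :=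
  okTree_splitD treeOneC_ok (by decide +kernel)

end Vale.Agent.P322.Box
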