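import Vale.Agent.P322.Scalar.Box.DataTwoA
import Vale.Agent.P322.Scalar.Box.Tables
import Vale.Agent.P322.Scalar.Box.TreeJoin

/-!
The kernel evaluates the box certificates, a few boxes at a time.
-/

namespace Vale.Agent.P322.Box

theorem treeTwoA_5_ok : okTree BoxTwo.chkTwo cornerTableTwo treeTwoA_5 (85/100) (2347/2500) (41/100) (699/1000) = true := by
  decide +kernel

theorem treeTwoA_6_ok : okTree BoxTwo.chkTwo cornerTableTwo treeTwoA_6 (2347/2500) (9757/10000) (41/100) (699/1000) = true := by
  decide +kernel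

theorem treeTwoA_3_ok : okTree BoxTwo.chkTwo cornerTableTwo treeTwoA_3 (85/100) (9757/10000) (41/100) (699/1000) = true :=
  okTree_splitS treeTwoA_5_ok treeTwoA_6_ok

theorem treeTwoA_11_ok : okTree BoxTwo.chkTwo cornerTableTwo treeTwoA_11 (85/100) (9037/10000) (699/1000) (157/200) = true := by
  decide +kernel

theorem treeTwoA_12_ok : okTree BoxTwo.chkTwo cornerTableTwo treeTwoA_12 (85/100) (9037/10000) (157/200) (529/625) = true := by
  decide +kernel

theorem treeTwoA_9_ok : okTree BoxTwo.chkTwo cornerTableTwo treeTwoA_9 (85/100) (9037/10000) (699/1000) (529/625) = true :=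
  okTree_splitD treeTwoA_11_ok treeTwoA_12_ok

theorem treeTwoA_10_ok : okTree BoxTwo.chkTwo cornerTableTwo treeTwoA_10 (9037/10000) (2347/2500) (699/1000) (529/625) = true := by
  decide +kernel

theorem treeTwoA_7_ok : okTree BoxTwo.chkTwo cornerTableTwo treeTwoA_7 (85/100) (2347/2500) (699/1000) (529/625) = true :=
  okTree_splitS treeTwoA_9_ok treeTwoA_10_ok

theorem treeTwoA_8_ok : okTree BoxTwo.chkTwo cornerTableTwo treeTwoA_8 (2347/2500) (9757/10000) (699/1000) (529/625) = true := by
  decide +kernel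

theorem treeTwoA_4_ok : okTree BoxTwo.chkTwo cornerTableTwo treeTwoA_4 (85/100) (9757/10000) (699/1000) (529/625) = true :=
  okTree_splitS treeTwoA_7_ok treeTwoA_8_ok

theorem treeTwoA_1_ok : okTree BoxTwo.chkTwo cornerTableTwo treeTwoA_1 (85/100) (9757/10000) (41/100) (529/625) = true :=
  okTree_splitD treeTwoA_3_ok treeTwoA_4_ok

theorem treeTwoA_13_ok : okTree BoxTwo.chkTwo cornerTableTwo treeTwoA_13 (85/100) (2347/2500) (529/625) (96/100) = true := by
  decide +kernel

theorem treeTwoA_17_ok : okTree BoxTwo.chkTwo cornerTableTwo treeTwoA_17 (2347/2500) (4807/5000) (529/625) (576/625) = true := by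
  decide +kernel

theorem treeTwoA_18_ok : okTree BoxTwo.chkTwo cornerTableTwo treeTwoA_18 (4807/5000) (9757/10000) (529/625) (576/625) = true := by
  decide +kernel

theorem treeTwoA_15_ok : okTree BoxTwo.chkTwo cornerTableTwo treeTwoA_15 (2347/2500) (9757/10000) (529/625) (576/625) = true :=
  okTree_splitS treeTwoA_17_ok treeTwoA_18_ok

theorem treeTwoA_19_ok : okTree BoxTwo.chkTwo cornerTableTwo treeTwoA_19 (2347/2500) (4807/5000) (576/625) (96/100) = true := by
  decide +kernel

theorem treeTwoA_20_ok : okTree BoxTwo.chkTwo cornerTableTwo treeTwoA_20 (4807/5000) (9757/10000) (576/625) (96/100) = true := by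
  decide +kernel

theorem treeTwoA_16_ok : okTree BoxTwo.chkTwo cornerTableTwo treeTwoA_16 (2347/2500) (9757/10000) (576/625) (96/100) = true :=
  okTree_splitS treeTwoA_19_ok treeTwoA_20_ok

theorem treeTwoA_14_ok : okTree BoxTwo.chkTwo cornerTableTwo treeTwoA_14 (2347/2500) (9757/10000) (529/625) (96/100) = true :=
  okTree_splitD treeTwoA_15_ok treeTwoA_16_ok

theorem treeTwoA_2_ok : okTree BoxTwo.chkTwo cornerTableTwo treeTwoA_2 (85/100) (9757/10000) (529/625) (96/100) = true :=
  okTree_splitS treeTwoA_13_ok treeTwoA_14_ok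

theorem treeTwoA_ok : okTree BoxTwo.chkTwo cornerTableTwo treeTwoA (85/100) (9757/10000) (41/100) (96/100) = true :=
  okTree_splitD treeTwoA_1_ok treeTwoA_2_ok

/-- the boxes over `[85/100, 9757/10000] × [41/100, 9757/10000]` -/
theorem checkTwoA :
    okTree BoxTwo.chkTwo cornerTableTwo (.splitD (96/100) treeTwoA .skip) (85/100) (9757/10000) (41/100) (9757/10000) = true :=
  okTree_splitD treeTwoA_ok (by decide +kernel)

theorem treeTwoB_3_ok : okTree BoxTwo.chkTwo cornerTableTwo treeTwoB_3 (9757/10000) (99101/100000) (68/100) (2117/2500) = true := by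
  decide +kernel

theorem treeTwoB_4_ok : okTree BoxTwo.chkTwo cornerTableTwo treeTwoB_4 (9757/10000) (99101/100000) (2117/2500) (9267/10000) = true := by
  decide +kernel

theorem treeTwoB_1_ok : okTree BoxTwo.chkTwo cornerTableTwo treeTwoB_1 (9757/10000) (99101/100000) (68/100) (9267/10000) = true :=
  okTree_splitD treeTwoB_3_ok treeTwoB_4_ok

theorem treeTwoB_7_ok : okTree BoxTwo.chkTwo cornerTableTwo treeTwoB_7 (9757/10000) (2463/2500) (9267/10000) (9649/10000) = true := by
  decide +kernel

theorem treeTwoB_8_ok : okTree BoxTwo.chkTwo cornerTableTwo treeTwoB_8 (2463/2500) (99101/100000) (9267/10000) (9649/10000) = true := by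
  decide +kernel

theorem treeTwoB_5_ok : okTree BoxTwo.chkTwo cornerTableTwo treeTwoB_5 (9757/10000) (99101/100000) (9267/10000) (9649/10000) = true :=
  okTree_splitS treeTwoB_7_ok treeTwoB_8_ok

theorem treeTwoB_9_ok : okTree BoxTwo.chkTwo cornerTableTwo treeTwoB_9 (9757/10000) (2463/2500) (9649/10000) (9832/10000) = true := by
  decide +kernel

theorem treeTwoB_11_ok : okTree BoxTwo.chkTwo cornerTableTwo treeTwoB_11 (2463/2500) (99101/100000) (9649/10000) (9757/10000) = true := by
  decide +kernel

theorem treeTwoB_12_ok : okTree BoxTwo.chkTwo cornerTableTwo treeTwoB_12 (2463/2500) (99101/100000) (9757/10000) (9832/10000) = true := by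
  decide +kernel

theorem treeTwoB_10_ok : okTree BoxTwo.chkTwo cornerTableTwo treeTwoB_10 (2463/2500) (99101/100000) (9649/10000) (9832/10000) = true :=
  okTree_splitD treeTwoB_11_ok treeTwoB_12_ok

theorem treeTwoB_6_ok : okTree BoxTwo.chkTwo cornerTableTwo treeTwoB_6 (9757/10000) (99101/100000) (9649/10000) (9832/10000) = true :=
  okTree_splitS treeTwoB_9_ok treeTwoB_10_ok

theorem treeTwoB_2_ok : okTree BoxTwo.chkTwo cornerTableTwo treeTwoB_2 (9757/10000) (99101/100000) (9267/10000) (9832/10000) = true :=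
  okTree_splitD treeTwoB_5_ok treeTwoB_6_ok

theorem treeTwoB_ok : okTree BoxTwo.chkTwo cornerTableTwo treeTwoB (9757/10000) (99101/100000) (68/100) (9832/10000) = true :=
  okTree_splitD treeTwoB_1_ok treeTwoB_2_ok

/-- the boxes over `[9757/10000, 99101/100000] × [68/100, 99101/100000]` -/
theorem checkTwoB :
    okTree BoxTwo.chkTwo cornerTableTwo (.splitD (9832/10000) treeTwoB .skip) (9757/10000) (99101/100000) (68/100) (99101/100000) = true :=
  okTree_splitD treeTwoB_ok (by decide +kernel)

end Vale.Agent.P322.Box
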