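import Vale.Agent.P322.Scalar.Box.DataTwoB
import Vale.Agent.P322.Scalar.Box.Tables
import Vale.Agent.P322.Scalar.Box.TreeJoin

/-!
The kernel evaluates the box certificates, a few boxes at a time.
-/

namespace Vale.Agent.P322.Box

theorem treeTwoC_5_ok : okTree BoxTwo.chkTwo cornerTableTwo treeTwoC_5 (99101/100000) (99777/100000) (74/100) (4219/5000) = true := by
  decide +kernel

theorem treeTwoC_6_ok : okTree BoxTwo.chkTwo cornerTableTwo treeTwoC_6 (99101/100000) (99777/100000) (4219/5000) (4531/5000) = true := by
  decide +kernel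

theorem treeTwoC_3_ok : okTree BoxTwo.chkTwo cornerTableTwo treeTwoC_3 (99101/100000) (99777/100000) (74/100) (4531/5000) = true :=
  okTree_splitD treeTwoC_5_ok treeTwoC_6_ok

theorem treeTwoC_7_ok : okTree BoxTwo.chkTwo cornerTableTwo treeTwoC_7 (99101/100000) (3111/3125) (4531/5000) (966177/1000000) = true := by
  decide +kernel

theorem treeTwoC_9_ok : okTree BoxTwo.chkTwo cornerTableTwo treeTwoC_9 (3111/3125) (99777/100000) (4531/5000) (9437/10000) = true := by
  decide +kernel

theorem treeTwoC_10_ok : okTree BoxTwo.chkTwo cornerTableTwo treeTwoC_10 (3111/3125) (99777/100000) (9437/10000) (966177/1000000) = true := by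
  decide +kernel

theorem treeTwoC_8_ok : okTree BoxTwo.chkTwo cornerTableTwo treeTwoC_8 (3111/3125) (99777/100000) (4531/5000) (966177/1000000) = true :=
  okTree_splitD treeTwoC_9_ok treeTwoC_10_ok

theorem treeTwoC_4_ok : okTree BoxTwo.chkTwo cornerTableTwo treeTwoC_4 (99101/100000) (99777/100000) (4531/5000) (966177/1000000) = true :=
  okTree_splitS treeTwoC_7_ok treeTwoC_8_ok

theorem treeTwoC_1_ok : okTree BoxTwo.chkTwo cornerTableTwo treeTwoC_1 (99101/100000) (99777/100000) (74/100) (966177/1000000) = true :=
  okTree_splitD treeTwoC_3_ok treeTwoC_4_ok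

theorem treeTwoC_15_ok : okTree BoxTwo.chkTwo cornerTableTwo treeTwoC_15 (99101/100000) (3111/3125) (966177/1000000) (9797/10000) = true := by
  decide +kernel

theorem treeTwoC_16_ok : okTree BoxTwo.chkTwo cornerTableTwo treeTwoC_16 (99101/100000) (3111/3125) (9797/10000) (987801/1000000) = true := by
  decide +kernel

theorem treeTwoC_13_ok : okTree BoxTwo.chkTwo cornerTableTwo treeTwoC_13 (99101/100000) (3111/3125) (966177/1000000) (987801/1000000) = true :=
  okTree_splitD treeTwoC_15_ok treeTwoC_16_ok

theorem treeTwoC_14_ok : okTree BoxTwo.chkTwo cornerTableTwo treeTwoC_14 (3111/3125) (99777/100000) (966177/1000000) (987801/1000000) = true := by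
  decide +kernel

theorem treeTwoC_11_ok : okTree BoxTwo.chkTwo cornerTableTwo treeTwoC_11 (99101/100000) (99777/100000) (966177/1000000) (987801/1000000) = true :=
  okTree_splitS treeTwoC_13_ok treeTwoC_14_ok

theorem treeTwoC_17_ok : okTree BoxTwo.chkTwo cornerTableTwo treeTwoC_17 (99101/100000) (3111/3125) (987801/1000000) (9956/10000) = true := by
  decide +kernel

theorem treeTwoC_19_ok : okTree BoxTwo.chkTwo cornerTableTwo treeTwoC_19 (3111/3125) (24921/25000) (987801/1000000) (9956/10000) = true := by
  decide +kernel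

theorem treeTwoC_20_ok : okTree BoxTwo.chkTwo cornerTableTwo treeTwoC_20 (24921/25000) (99777/100000) (987801/1000000) (9956/10000) = true := by
  decide +kernel

theorem treeTwoC_18_ok : okTree BoxTwo.chkTwo cornerTableTwo treeTwoC_18 (3111/3125) (99777/100000) (987801/1000000) (9956/10000) = true :=
  okTree_splitS treeTwoC_19_ok treeTwoC_20_ok

theorem treeTwoC_12_ok : okTree BoxTwo.chkTwo cornerTableTwo treeTwoC_12 (99101/100000) (99777/100000) (987801/1000000) (9956/10000) = true :=
  okTree_splitS treeTwoC_17_ok treeTwoC_18_ok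

theorem treeTwoC_2_ok : okTree BoxTwo.chkTwo cornerTableTwo treeTwoC_2 (99101/100000) (99777/100000) (966177/1000000) (9956/10000) = true :=
  okTree_splitD treeTwoC_11_ok treeTwoC_12_ok

theorem treeTwoC_ok : okTree BoxTwo.chkTwo cornerTableTwo treeTwoC (99101/100000) (99777/100000) (74/100) (9956/10000) = true :=
  okTree_splitD treeTwoC_1_ok treeTwoC_2_ok

/-- the boxes over `[99101/100000, 99777/100000] × [74/100, 99777/100000]` -/
theorem checkTwoC :
    okTree BoxTwo.chkTwo cornerTableTwo (.splitD (9956/10000) treeTwoC .skip) (99101/100000) (99777/100000) (74/100) (99777/100000) = true :=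
  okTree_splitD treeTwoC_ok (by decide +kernel)

theorem treeTwoD_3_ok : okTree BoxTwo.chkTwo cornerTableTwo treeTwoD_3 (99777/100000) (999335/1000000) (80/100) (469/500) = true := by
  decide +kernel

theorem treeTwoD_9_ok : okTree BoxTwo.chkTwo cornerTableTwo treeTwoD_9 (99777/100000) (49939/50000) (469/500) (4769/5000) = true := by
  decide +kernel

theorem treeTwoD_10_ok : okTree BoxTwo.chkTwo cornerTableTwo treeTwoD_10 (99777/100000) (49939/50000) (4769/5000) (1931/2000) = true := by
  decide +kernel

theorem treeTwoD_7_ok : okTree BoxTwo.chkTwo cornerTableTwo treeTwoD_7 (99777/100000) (49939/50000) (469/500) (1931/2000) = true :=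
  okTree_splitD treeTwoD_9_ok treeTwoD_10_ok

theorem treeTwoD_11_ok : okTree BoxTwo.chkTwo cornerTableTwo treeTwoD_11 (49939/50000) (999335/1000000) (469/500) (4769/5000) = true := by
  decide +kernel

theorem treeTwoD_12_ok : okTree BoxTwo.chkTwo cornerTableTwo treeTwoD_12 (49939/50000) (999335/1000000) (4769/5000) (1931/2000) = true := by
  decide +kernel

theorem treeTwoD_8_ok : okTree BoxTwo.chkTwo cornerTableTwo treeTwoD_8 (49939/50000) (999335/1000000) (469/500) (1931/2000) = true :=
  okTree_splitD treeTwoD_11_ok treeTwoD_12_ok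

theorem treeTwoD_5_ok : okTree BoxTwo.chkTwo cornerTableTwo treeTwoD_5 (99777/100000) (999335/1000000) (469/500) (1931/2000) = true :=
  okTree_splitS treeTwoD_7_ok treeTwoD_8_ok

theorem treeTwoD_13_ok : okTree BoxTwo.chkTwo cornerTableTwo treeTwoD_13 (99777/100000) (49939/50000) (1931/2000) (196153/200000) = true := by
  decide +kernel

theorem treeTwoD_15_ok : okTree BoxTwo.chkTwo cornerTableTwo treeTwoD_15 (49939/50000) (999335/1000000) (1931/2000) (4871/5000) = true := by
  decide +kernel

theorem treeTwoD_16_ok : okTree BoxTwo.chkTwo cornerTableTwo treeTwoD_16 (49939/50000) (999335/1000000) (4871/5000) (196153/200000) = true := by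
  decide +kernel

theorem treeTwoD_14_ok : okTree BoxTwo.chkTwo cornerTableTwo treeTwoD_14 (49939/50000) (999335/1000000) (1931/2000) (196153/200000) = true :=
  okTree_splitD treeTwoD_15_ok treeTwoD_16_ok

theorem treeTwoD_6_ok : okTree BoxTwo.chkTwo cornerTableTwo treeTwoD_6 (99777/100000) (999335/1000000) (1931/2000) (196153/200000) = true :=
  okTree_splitS treeTwoD_13_ok treeTwoD_14_ok

theorem treeTwoD_4_ok : okTree BoxTwo.chkTwo cornerTableTwo treeTwoD_4 (99777/100000) (999335/1000000) (469/500) (196153/200000) = true :=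
  okTree_splitD treeTwoD_5_ok treeTwoD_6_ok

theorem treeTwoD_1_ok : okTree BoxTwo.chkTwo cornerTableTwo treeTwoD_1 (99777/100000) (999335/1000000) (80/100) (196153/200000) = true :=
  okTree_splitD treeTwoD_3_ok treeTwoD_4_ok

theorem treeTwoD_19_ok : okTree BoxTwo.chkTwo cornerTableTwo treeTwoD_19 (99777/100000) (49939/50000) (196153/200000) (198807/200000) = true := by
  decide +kernel

theorem treeTwoD_20_ok : okTree BoxTwo.chkTwo cornerTableTwo treeTwoD_20 (49939/50000) (999335/1000000) (196153/200000) (198807/200000) = true := by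
  decide +kernel

theorem treeTwoD_17_ok : okTree BoxTwo.chkTwo cornerTableTwo treeTwoD_17 (99777/100000) (999335/1000000) (196153/200000) (198807/200000) = true :=
  okTree_splitS treeTwoD_19_ok treeTwoD_20_ok

theorem treeTwoD_23_ok : okTree BoxTwo.chkTwo cornerTableTwo treeTwoD_23 (99777/100000) (19967/20000) (198807/200000) (99815/100000) = true := by
  decide +kernel

theorem treeTwoD_25_ok : okTree BoxTwo.chkTwo cornerTableTwo treeTwoD_25 (19967/20000) (49939/50000) (198807/200000) (498339/500000) = true := by
  decide +kernel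

theorem treeTwoD_26_ok : okTree BoxTwo.chkTwo cornerTableTwo treeTwoD_26 (19967/20000) (49939/50000) (498339/500000) (99815/100000) = true := by
  decide +kernel

theorem treeTwoD_24_ok : okTree BoxTwo.chkTwo cornerTableTwo treeTwoD_24 (19967/20000) (49939/50000) (198807/200000) (99815/100000) = true :=
  okTree_splitD treeTwoD_25_ok treeTwoD_26_ok

theorem treeTwoD_21_ok : okTree BoxTwo.chkTwo cornerTableTwo treeTwoD_21 (99777/100000) (49939/50000) (198807/200000) (99815/100000) = true :=
  okTree_splitS treeTwoD_23_ok treeTwoD_24_ok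

theorem treeTwoD_29_ok : okTree BoxTwo.chkTwo cornerTableTwo treeTwoD_29 (49939/50000) (9991/10000) (198807/200000) (498339/500000) = true := by
  decide +kernel

theorem treeTwoD_30_ok : okTree BoxTwo.chkTwo cornerTableTwo treeTwoD_30 (9991/10000) (999335/1000000) (198807/200000) (498339/500000) = true := by
  decide +kernel

theorem treeTwoD_27_ok : okTree BoxTwo.chkTwo cornerTableTwo treeTwoD_27 (49939/50000) (999335/1000000) (198807/200000) (498339/500000) = true :=
  okTree_splitS treeTwoD_29_ok treeTwoD_30_ok

theorem treeTwoD_28_ok : okTree BoxTwo.chkTwo cornerTableTwo treeTwoD_28 (49939/50000) (999335/1000000) (498339/500000) (99815/100000) = true := by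
  decide +kernel

theorem treeTwoD_22_ok : okTree BoxTwo.chkTwo cornerTableTwo treeTwoD_22 (49939/50000) (999335/1000000) (198807/200000) (99815/100000) = true :=
  okTree_splitD treeTwoD_27_ok treeTwoD_28_ok

theorem treeTwoD_18_ok : okTree BoxTwo.chkTwo cornerTableTwo treeTwoD_18 (99777/100000) (999335/1000000) (198807/200000) (99815/100000) = true :=
  okTree_splitS treeTwoD_21_ok treeTwoD_22_ok

theorem treeTwoD_2_ok : okTree BoxTwo.chkTwo cornerTableTwo treeTwoD_2 (99777/100000) (999335/1000000) (196153/200000) (99815/100000) = true :=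
  okTree_splitD treeTwoD_17_ok treeTwoD_18_ok

theorem treeTwoD_ok : okTree BoxTwo.chkTwo cornerTableTwo treeTwoD (99777/100000) (999335/1000000) (80/100) (99815/100000) = true :=
  okTree_splitD treeTwoD_1_ok treeTwoD_2_ok

/-- the boxes over `[99777/100000, 999335/1000000] × [80/100, 999335/1000000]` -/
theorem checkTwoD :
    okTree BoxTwo.chkTwo cornerTableTwo (.splitD (99815/100000) treeTwoD .skip) (99777/100000) (999335/1000000) (80/100) (999335/1000000) = true :=
  okTree_splitD treeTwoD_ok (by decide +kernel)

end Vale.Agent.P322.Box
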