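import Vale.Agent.P322.MeanCert
import Vale.Agent.P322.Scalar.Defs
import Vale.Agent.P322.Scalar.Num

/-!
Common parts of the box certificates for the scalar inequality: subdivision trees, the corner table,
the tangent plane of the dissipation, concavity of entropy.
-/

namespace Vale.Agent.P322.Box

open Real Set Vale.Agent.P322.Num

/-- a row of the corner table: on `[s0, s1]` all `dc ≤ d` are treated by the corner argument -/
structure Row where
  s0 : ℚ
  s1 : ℚ
  dc : ℚ

/-- a subdivision of a rectangle in the `(s, d)` plane -/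
inductive Tree (P : Type) : Type
  | skip : Tree P
  | leaf (ps : List P) : Tree P
  | splitS (v : ℚ) (l r : Tree P) : Tree P
  | splitD (v : ℚ) (l r : Tree P) : Tree P

/-- the rows reach from `cur` to `sh` with corner thresholds at most `dl` -/
def coverRows : List Row → ℚ → ℚ → ℚ → Bool
  | [], cur, sh, _ => decide (sh ≤ cur)
  | w :: ws, cur, sh, dl =>
    decide (sh ≤ cur) ||
      (if w.s0 ≤ cur ∧ cur ≤ w.s1 ∧ w.dc ≤ dl then coverRows ws w.s1 sh dl
      else coverRows ws cur sh dl)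

/-- a rectangle can be skipped -/
def skipOK (tbl : List Row) (sl sh dl : ℚ) : Bool := decide (sl < sh) && coverRows tbl sl sh dl

/-- check of a subdivision tree -/
def okTree {P : Type} (chk : List P → ℚ → ℚ → ℚ → ℚ → Bool) (tbl : List Row) :
    Tree P → ℚ → ℚ → ℚ → ℚ → Bool
  | .skip, sl, sh, dl, _ => skipOK tbl sl sh dl
  | .leaf ps, sl, sh, dl, dh => chk ps sl sh dl dh
  | .splitS v l r, sl, sh, dl, dh => okTree chk tbl l sl v dl dh && okTree chk tbl r v sh dl dh
  | .splitD v l r, sl, sh, dl, dh => okTree chk tbl l sl sh dl v && okTree chk tbl r sl sh v dh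

lemma coverRows_sound : ∀ (ws : List Row) (cur sh dl : ℚ), coverRows ws cur sh dl = true →
    ∀ s : ℝ, (cur : ℝ) ≤ s → s ≤ sh → (cur : ℝ) < sh →
      ∃ w ∈ ws, (w.s0 : ℝ) ≤ s ∧ s ≤ w.s1 ∧ (w.dc : ℝ) ≤ dl
  | [], cur, sh, dl, h, s, h1, h2, h3 => by
    simp only [coverRows, decide_eq_true_eq] at h
    have : (sh : ℝ) ≤ cur := by exact_mod_cast h
    linarith
  | w :: ws, cur, sh, dl, h, s, h1, h2, h3 => by
    simp only [coverRows, Bool.or_eq_true, decide_eq_true_eq] at h
    rcases h with h | h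
    · have : (sh : ℝ) ≤ cur := by exact_mod_cast h
      linarith
    · split_ifs at h with hc
      · rcases le_or_gt s (w.s1 : ℝ) with hs | hs
        · exact ⟨w, List.mem_cons_self, le_trans (by exact_mod_cast hc.1) h1, hs,
            by exact_mod_cast hc.2.2⟩
        · obtain ⟨v, hv, hv'⟩ := coverRows_sound ws w.s1 sh dl h s hs.le h2 (hs.trans_le h2)
          exact ⟨v, List.mem_cons_of_mem _ hv, hv'⟩
      · obtain ⟨v, hv, hv'⟩ := coverRows_sound ws cur sh dl h s h1 h2 h3
        exact ⟨v, List.mem_cons_of_mem _ hv, hv'⟩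

/-- Soundness of the subdivision: `Q` holds off the corner table. -/
theorem okTree_sound {P : Type} {chk : List P → ℚ → ℚ → ℚ → ℚ → Bool} {Q : ℝ → ℝ → Prop}
    (hchk : ∀ ps (sl sh dl dh : ℚ), chk ps sl sh dl dh = true →
      ∀ s d : ℝ, (sl : ℝ) ≤ s → s ≤ sh → (dl : ℝ) ≤ d → d ≤ dh → Q s d)
    (tbl : List Row) : ∀ (t : Tree P) (sl sh dl dh : ℚ), okTree chk tbl t sl sh dl dh = true →
      ∀ s d : ℝ, (sl : ℝ) ≤ s → s ≤ sh → (dl : ℝ) ≤ d → d ≤ dh →
        (∀ w ∈ tbl, (w.s0 : ℝ) ≤ s → s ≤ w.s1 → d < w.dc) → Q s d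
  | .skip, sl, sh, dl, dh, h, s, d, h1, h2, h3, h4, h5 => by
    simp only [okTree, skipOK, Bool.and_eq_true, decide_eq_true_eq] at h
    obtain ⟨w, hw, e1, e2, e3⟩ := coverRows_sound tbl sl sh dl h.2 s h1 h2 (by exact_mod_cast h.1)
    linarith [h5 w hw e1 e2]
  | .leaf ps, sl, sh, dl, dh, h, s, d, h1, h2, h3, h4, _ => hchk ps sl sh dl dh h s d h1 h2 h3 h4
  | .splitS v l r, sl, sh, dl, dh, h, s, d, h1, h2, h3, h4, h5 => by
    simp only [okTree, Bool.and_eq_true] at h
    rcases le_total s (v : ℝ) with hv | hv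
    · exact okTree_sound hchk tbl l sl v dl dh h.1 s d h1 hv h3 h4 h5
    · exact okTree_sound hchk tbl r v sh dl dh h.2 s d hv h2 h3 h4 h5
  | .splitD v l r, sl, sh, dl, dh, h, s, d, h1, h2, h3, h4, h5 => by
    simp only [okTree, Bool.and_eq_true] at h
    rcases le_total d (v : ℝ) with hv | hv
    · exact okTree_sound hchk tbl l sl sh dl v h.1 s d h1 h2 h3 hv h5
    · exact okTree_sound hchk tbl r sl sh v dh h.2 s d h1 h2 hv h4 h5

/-! ## Concavity -/

/-- A concave function which is nonnegative at both ends of an interval is nonnegative on it. -/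
lemma nonneg_of_concaveOn {f : ℝ → ℝ} {a b x : ℝ} (hf : ConcaveOn ℝ (Icc a b) f)
    (hx : x ∈ Icc a b) (ha : 0 ≤ f a) (hb : 0 ≤ f b) : 0 ≤ f x := by
  have hab : a ≤ b := hx.1.trans hx.2
  exact (le_min ha hb).trans (hf.ge_on_segment (left_mem_Icc.2 hab) (right_mem_Icc.2 hab)
    (by rwa [segment_eq_Icc hab]))

/-- Nonnegativity on a rectangle of a function concave in each variable. -/
lemma nonneg_of_sepConcave₂ {f : ℝ → ℝ → ℝ} {a b c e x y : ℝ}
    (h1 : ∀ v ∈ Icc c e, ConcaveOn ℝ (Icc a b) fun u => f u v)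
    (h2 : ∀ u ∈ Icc a b, ConcaveOn ℝ (Icc c e) fun v => f u v)
    (hx : x ∈ Icc a b) (hy : y ∈ Icc c e)
    (hac : 0 ≤ f a c) (hae : 0 ≤ f a e) (hbc : 0 ≤ f b c) (hbe : 0 ≤ f b e) : 0 ≤ f x y := by
  have hab : a ≤ b := hx.1.trans hx.2
  exact nonneg_of_concaveOn (f := fun u => f u y) (h1 y hy) hx
    (nonneg_of_concaveOn (f := fun v => f a v) (h2 a (left_mem_Icc.2 hab)) hy hac hae)
    (nonneg_of_concaveOn (f := fun v => f b v) (h2 b (right_mem_Icc.2 hab)) hy hbc hbe)

lemma concaveOn_ent : ConcaveOn ℝ (Icc (-1) 1) ent := by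
  refine AntitoneOn.concaveOn_of_deriv (convex_Icc _ _) continuous_ent.continuousOn ?_ ?_
  · intro x hx
    rw [interior_Icc] at hx
    exact (hasDerivAt_ent hx.1 hx.2).differentiableAt.differentiableWithinAt
  · intro x hx y hy hxy
    rw [interior_Icc] at hx hy
    rw [(hasDerivAt_ent hx.1 hx.2).deriv, (hasDerivAt_ent hy.1 hy.2).deriv]
    linarith [artanh_le_artanh hx.1 hy.2 hxy]

/-- entropy of an affine argument is concave -/
lemma concaveOn_ent_affine {p q a b : ℝ} (h : ∀ t ∈ Icc a b, p + q * t ∈ Icc (-1 : ℝ) 1) :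
    ConcaveOn ℝ (Icc a b) fun t => ent (p + q * t) := by
  refine ⟨convex_Icc a b, fun x hx y hy u v hu hv huv => ?_⟩
  have := concaveOn_ent.2 (h x hx) (h y hy) hu hv huv
  simp only [smul_eq_mul] at this ⊢
  refine this.trans (le_of_eq (congrArg ent ?_))
  rw [show v = 1 - u by linarith]; ring

/-- the average entropy of the pair is concave in the half difference -/
lemma concaveOn_hbar_d {m a b : ℝ} (ha : 0 ≤ a) (hm : 0 ≤ m) (hmb : m + b ≤ 1) :
    ConcaveOn ℝ (Icc a b) fun t => (ent (m + t) + ent (m - t)) / 2 := by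
  have h1 := concaveOn_ent_affine (p := m) (q := 1) (a := a) (b := b) fun t ht =>
    ⟨by linarith [ht.1], by linarith [ht.2]⟩
  have h2 := concaveOn_ent_affine (p := m) (q := -1) (a := a) (b := b) fun t ht =>
    ⟨by linarith [ht.2], by linarith [ht.1, ht.2]⟩
  simp only [one_mul] at h1
  simp only [neg_one_mul, ← sub_eq_add_neg] at h2
  refine ((h1.add h2).smul (show (0 : ℝ) ≤ 1 / 2 by norm_num)).congr fun t _ => ?_
  simp only [Pi.add_apply, smul_eq_mul]; ring

/-- the average entropy of the pair is concave in the mean -/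
lemma concaveOn_hbar_m {d a b : ℝ} (ha : 0 ≤ a) (hd : 0 ≤ d) (hdb : b + d ≤ 1) :
    ConcaveOn ℝ (Icc a b) fun t => (ent (t + d) + ent (t - d)) / 2 := by
  have h1 := concaveOn_ent_affine (p := d) (q := 1) (a := a) (b := b) fun t ht =>
    ⟨by linarith [ht.1], by linarith [ht.2]⟩
  have h2 := concaveOn_ent_affine (p := -d) (q := 1) (a := a) (b := b) fun t ht =>
    ⟨by linarith [ht.1, ht.2], by linarith [ht.2]⟩
  refine ((h1.add h2).smul (show (0 : ℝ) ≤ 1 / 2 by norm_num)).congr fun t _ => ?_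
  simp only [Pi.add_apply, smul_eq_mul, one_mul, neg_add_eq_sub, add_comm d]; ring

/-! ## Rational bounds -/

/-- lower bound for `ent` on `[0,1]` -/
def entLoC (x : ℚ) : ℚ := if x < 1 then entLo x else 0

lemma entLoC_le {x : ℚ} (h₀ : 0 ≤ x) (h₁ : x ≤ 1) : (entLoC x : ℝ) ≤ ent (x : ℝ) := by
  unfold entLoC
  split_ifs with h
  · exact entLo_le (by linarith) h
  · have : x = 1 := le_antisymm h₁ (not_lt.1 h)
    subst this
    simp [ent_one]

/-- lower bound for the average entropy of the pair -/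
def hbarLo (m d : ℚ) : ℚ := (entLoC (m + d) + entLoC |m - d|) / 2

lemma hbarLo_le {m d : ℚ} (hm : 0 ≤ m) (hd : 0 ≤ d) (hmd : m + d ≤ 1) :
    (hbarLo m d : ℝ) ≤ (ent ((m : ℝ) + d) + ent ((m : ℝ) - d)) / 2 := by
  have h1 := entLoC_le (x := m + d) (by linarith) hmd
  have h2 := entLoC_le (x := |m - d|) (abs_nonneg _) (by
    rw [abs_le]; constructor <;> linarith)
  have e : ent ((|m - d| : ℚ) : ℝ) = ent ((m : ℝ) - d) := by
    push_cast
    rcases abs_choice ((m : ℝ) - d) with h | h <;> rw [h]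
    rw [ent_neg]
  rw [e] at h2
  push_cast [hbarLo] at h1 ⊢
  linarith

/-- slope in `m` of the tangent plane -/
noncomputable def planeM (mp dp : ℝ) : ℝ :=
  2 * mp * dp ^ 2 / ((1 - (mp + dp) ^ 2) * (1 - (mp - dp) ^ 2))

/-- slope in `d` of the tangent plane -/
noncomputable def planeD (mp dp : ℝ) : ℝ :=
  (artanh (mp + dp) - artanh (mp - dp)) / 2
    + dp * (1 / (1 - (mp + dp) ^ 2) + 1 / (1 - (mp - dp) ^ 2)) / 2

/-- the tangent plane of the dissipation -/
noncomputable def planeAt (mp dp m d : ℝ) : ℝ :=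
  kerMD mp dp + planeM mp dp * (m - mp) + planeD mp dp * (d - dp)

lemma planeM_nonneg {mp dp : ℝ} (hm : 0 ≤ mp) (hd : 0 ≤ dp) (h : mp + dp < 1) :
    0 ≤ planeM mp dp :=
  div_nonneg (by positivity) (mul_nonneg (one_sub_sq_pos (by linarith) h).le
    (one_sub_sq_pos (by linarith) (by linarith)).le)

theorem planeAt_le {mp dp m d : ℝ} (hm : 0 ≤ mp) (hd : 0 ≤ dp) (h : mp + dp < 1)
    (hm' : 0 ≤ m) (hd' : 0 ≤ d) (h' : m + d < 1) : planeAt mp dp m d ≤ kerMD m d := by
  have ha : |m + d| < 1 := abs_lt.2 ⟨by linarith, h'⟩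
  have hb : |m - d| < 1 := abs_lt.2 ⟨by linarith, by linarith⟩
  have ha0 : |mp + dp| < 1 := abs_lt.2 ⟨by linarith, h⟩
  have hb0 : |mp - dp| < 1 := abs_lt.2 ⟨by linarith, by linarith⟩
  have key := meanCertificate (mp + dp) (mp - dp) (m + d) (m - d) (by linarith) (by linarith) h
    (by linarith) ha hb
  have hB : ∀ {x c : ℝ}, |x| < 1 → |c| < 1 → 0 ≤ bregPhi x c := by
    intro x c hx hc
    rw [abs_lt] at hx hc
    have hd : ∀ u ∈ Ioo (-1 : ℝ) 1,
        HasDerivAt (fun u => phi u - artanh c * u) (artanh u - artanh c) u := fun u hu => by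
      have := (hasDerivAt_phi hu.1 hu.2).sub ((hasDerivAt_id u).const_mul (artanh c))
      exact this.congr_deriv (by ring)
    have hconv : ConvexOn ℝ (Ioo (-1 : ℝ) 1) fun u => phi u - artanh c * u := by
      refine MonotoneOn.convexOn_of_deriv (convex_Ioo _ _)
        (fun u hu => (hd u hu).continuousAt.continuousWithinAt)
        (fun u hu => (hd u (interior_subset hu)).differentiableAt.differentiableWithinAt) ?_
      intro u hu v hv huv
      rw [interior_Ioo] at hu hv
      rw [(hd u hu).deriv, (hd v hv).deriv]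
      linarith [artanh_le_artanh hu.1 hv.2 huv]
    have h0 : deriv (fun u => phi u - artanh c * u) c = 0 := by rw [(hd c hc).deriv, sub_self]
    rcases lt_trichotomy c x with hcx | hcx | hcx
    · have := hconv.deriv_le_slope hc hx hcx (hd c hc).differentiableAt
      rw [h0, slope_def_field, le_div_iff₀ (by linarith)] at this
      unfold bregPhi; linarith
    · simp [bregPhi, hcx]
    · have := hconv.slope_le_deriv hx hc hcx (hd c hc).differentiableAt
      rw [h0, slope_def_field, div_le_iff₀ (by linarith)] at this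
      unfold bregPhi; linarith
  have h1 : 0 ≤ min (1 / 2) (cornerRatio (mp + dp) (mp - dp))
      * ((bregPhi (m + d) (mp + dp) + bregPhi (m - d) (mp - dp)) / 2) := by
    refine mul_nonneg (le_min (by norm_num) ?_) (by linarith [hB ha ha0, hB hb hb0])
    unfold cornerRatio
    have hp : 0 < (1 + (mp + dp)) * (1 + (mp - dp)) := mul_pos (by linarith) (by linarith)
    refine div_nonneg (sq_nonneg _) (mul_nonneg (by linarith) (neg_nonneg.2 ?_))
    refine log_nonpos (by positivity) ?_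
    nlinarith
  have e1 := one_sub_sq_pos (show -1 < mp + dp by linarith) h
  have e2 := one_sub_sq_pos (show -1 < mp - dp by linarith) (by linarith)
  have e : kerDeriv (mp + dp) (mp - dp) * (m + d - (mp + dp))
      + kerDeriv (mp - dp) (mp + dp) * (m - d - (mp - dp))
      = planeM mp dp * (m - mp) + planeD mp dp * (d - dp) := by
    unfold kerDeriv planeM planeD
    field_simp
    ring
  simp only [planeAt, kerMD]
  linarith

/-- lower bound for the tangent plane -/
def planeLo (mp dp m d : ℚ) : ℚ :=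
  dp * (atLo (mp + dp) - atHi (mp - dp)) / 2
    + 2 * mp * dp ^ 2 / ((1 - (mp + dp) ^ 2) * (1 - (mp - dp) ^ 2)) * (m - mp)
    + (if dp ≤ d then (atLo (mp + dp) - atHi (mp - dp)) / 2
        + dp * (1 / (1 - (mp + dp) ^ 2) + 1 / (1 - (mp - dp) ^ 2)) / 2
      else (atHi (mp + dp) - atLo (mp - dp)) / 2
        + dp * (1 / (1 - (mp + dp) ^ 2) + 1 / (1 - (mp - dp) ^ 2)) / 2) * (d - dp)

lemma planeLo_le {mp dp m d : ℚ} (hm : 0 ≤ mp) (hd : 0 ≤ dp) (h : mp + dp < 1) :
    (planeLo mp dp m d : ℝ) ≤ planeAt (mp : ℝ) dp m d := by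
  have a1 := atLo_le (s := mp + dp) (by linarith) h
  have a2 := le_atHi (s := mp + dp) (by linarith) h
  have b1 := atLo_le (s := mp - dp) (by linarith) (by linarith)
  have b2 := le_atHi (s := mp - dp) (by linarith) (by linarith)
  have hd' : (0 : ℝ) ≤ dp := by exact_mod_cast hd
  have hk : kerMD (mp : ℝ) dp =
      (dp : ℝ) * (artanh ((mp : ℝ) + dp) - artanh ((mp : ℝ) - dp)) / 2 := by
    unfold kerMD ker; ring
  unfold planeLo
  split_ifs with hc
  · have hc' : (0 : ℝ) ≤ (d : ℝ) - dp := sub_nonneg.2 (by exact_mod_cast hc)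
    push_cast at a1 a2 b1 b2 ⊢
    simp only [planeAt, planeM, planeD, hk]
    nlinarith [mul_le_mul_of_nonneg_left (sub_le_sub a1 b2) hd',
      mul_le_mul_of_nonneg_left (sub_le_sub a1 b2) hc']
  · have hc' : (0 : ℝ) ≤ (dp : ℝ) - d := sub_nonneg.2 (by exact_mod_cast (not_le.1 hc).le)
    push_cast at a1 a2 b1 b2 ⊢
    simp only [planeAt, planeM, planeD, hk]
    nlinarith [mul_le_mul_of_nonneg_left (sub_le_sub a1 b2) hd',
      mul_le_mul_of_nonneg_left (sub_le_sub a2 b1) hc']

/-- slope of a tangent line of `pairBound` in `d` -/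
def lineU (z : ℚ) : ℚ := atLo z + lamLo z * entLo z / z

/-- slope of a tangent line of `pairBound` in `H` -/
def lineL (z : ℚ) : ℚ := lamHi z

/-- side conditions of `lineU` and `lineL` -/
def lineOK (z : ℚ) : Bool :=
  decide (0 < z ∧ z < 1 ∧ 0 ≤ lamLo z ∧ 0 ≤ entLo z ∧ 0 < nfunLo z)

lemma line_le {z : ℚ} (h : lineOK z = true) :
    (0 : ℝ) ≤ (lineL z : ℝ) ∧ ∀ d H : ℝ, 0 ≤ d → 0 < H →
      (lineU z : ℝ) * d - (lineL z : ℝ) * H ≤ pairBound d H := by
  simp only [lineOK, decide_eq_true_eq] at h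
  obtain ⟨h1, h2, h3, h4, h5⟩ := h
  have hz : (z : ℝ) ∈ Ioo (0 : ℝ) 1 := ⟨by exact_mod_cast h1, by exact_mod_cast h2⟩
  have hl0 := lamFun_nonneg (show (-1 : ℝ) < z by linarith [hz.1]) hz.2
  have hl := le_lamHi (s := z) (by linarith) h2 h5
  refine ⟨hl0.trans hl, fun d H hd hH => ?_⟩
  have h3' : (0 : ℝ) ≤ (lamLo z : ℝ) := by exact_mod_cast h3
  have h4' : (0 : ℝ) ≤ (entLo z : ℝ) := by exact_mod_cast h4
  have hu : (lineU z : ℝ) ≤ artanh (z : ℝ) + lamFun z * (ent z / z) := by
    rw [lineU]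
    push_cast
    rw [mul_div_assoc]
    refine add_le_add (atLo_le (by linarith) h2) ?_
    exact mul_le_mul (lamLo_le (by linarith) h2)
      (div_le_div_of_nonneg_right (entLo_le (by linarith) h2) hz.1.le)
      (div_nonneg h4' hz.1.le) hl0
  refine le_trans ?_ (pairBound_tangent hd hH hz)
  exact sub_le_sub (mul_le_mul_of_nonneg_right hu hd) (mul_le_mul_of_nonneg_right hl hH.le)

/-- slope of a tangent line of `curve` -/
def curveK (t : ℚ) : ℚ := if t = 0 then 2 else kapLo t

/-- offset of a tangent line of `curve` -/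
def curveB (t : ℚ) : ℚ := if t = 0 then 0 else max 0 (kapHi t * phiHi t - t * atLo t)

/-- side conditions of `curveK` and `curveB` -/
def curveOK (t : ℚ) : Bool := decide (t = 0 ∨ (0 < t ∧ t < 1 ∧ 0 < atLo t ∧ 0 ≤ kapLo t))

lemma curve_line {t : ℚ} (h : curveOK t = true) :
    (0 : ℝ) ≤ (curveK t : ℝ) ∧ ∀ x : ℝ, 0 ≤ x → x < log 2 →
      (curveK t : ℝ) * x - (curveB t : ℝ) ≤ curve (log 2 - x) := by
  simp only [curveOK, decide_eq_true_eq] at h
  unfold curveK curveB
  split_ifs with ht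
  · refine ⟨by norm_num, fun x hx hx' => ?_⟩
    have := curve_tangent (show 0 < log 2 - x by linarith) (left_mem_Ico.2 zero_lt_one)
    simp only [kap_zero, ent_zero, zero_mul] at this
    push_cast
    linarith
  · obtain ⟨h1, h2, h3, h4⟩ := h.resolve_left ht
    refine ⟨by exact_mod_cast h4, fun x hx hx' => ?_⟩
    have h1' : (0 : ℝ) < t := by exact_mod_cast h1
    have h2' : (t : ℝ) < 1 := by exact_mod_cast h2
    have hs := curve_tangent (show 0 < log 2 - x by linarith) (show (t : ℝ) ∈ Ico (0 : ℝ) 1 from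
      ⟨h1'.le, h2'⟩)
    have ka := kapLo_le h1 h2
    have kb := le_kapHi h1 h2 h3
    have pb := le_phiHi (s := t) (by linarith) h2
    have ab := atLo_le (s := t) (by linarith) h2
    have hp := phi_nonneg (show -1 ≤ (t : ℝ) by linarith) h2'.le
    have hk := two_le_kap h1'.le h2'
    have e1 : kap (t : ℝ) * phi t ≤ (kapHi t : ℝ) * (phiHi t : ℝ) :=
      mul_le_mul kb pb hp (by linarith)
    have e2 := mul_le_mul_of_nonneg_right ka hx
    have e3 := mul_le_mul_of_nonneg_left ab h1'.le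
    have hmax : ((kapHi t * phiHi t - t * atLo t : ℚ) : ℝ)
        ≤ ((max 0 (kapHi t * phiHi t - t * atLo t) : ℚ) : ℝ) := by
      exact_mod_cast le_max_right _ _
    rw [ent] at hs
    push_cast at hmax ⊢
    linarith

end Vale.Agent.P322.Box
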