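import Vale.Agent.P322.Scalar.Box.One

/-!
Subdivision data for the box certificates (found numerically, checked by the kernel).
-/

namespace Vale.Agent.P322.Box

/-- a group of boxes -/
def treeOneA_7 : Tree P1 :=
  .splitD (1041/5000)
    (.splitS (231/400)
    (.leaf [⟨1, (47013/100000), (33243/100000), (2659/10000), (1003/2000), 0, 1⟩,
      ⟨1, (12217/20000), (10901/20000), (206/625), (2377/5000), 0, 1⟩,
      ⟨3, 0, (12217/20000), (29/2000), (4861/10000), 1, 1⟩])
    (.leaf [⟨1, (49487/100000), (34993/100000), (111/400), (1349/2500), 0, 1⟩,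
      ⟨1, (65261/100000), (28957/50000), (147/400), (5283/10000), 0, 1⟩,
      ⟨3, 0, (65261/100000), (19/125), (1023/2000), 1, 1⟩]))
    (.leaf [⟨1, (47731/100000), (33751/100000), (767/2500), (2391/5000), 0, 1⟩,
      ⟨1, (60261/100000), (27179/50000), (3839/10000), (951/2000), 0, 1⟩,
      ⟨3, 0, (60261/100000), (237/625), (1233/2500), 1, 1⟩])

/-- a group of boxes -/
def treeOneA_8 : Tree P1 :=
  .splitD (1041/5000)
    (.leaf [⟨1, (51961/100000), (18371/50000), (179/625), (713/1250), 0, 1⟩,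
      ⟨1, (17243/25000), (30531/50000), (489/1250), (1351/2500), 0, 1⟩,
      ⟨3, 0, (17243/25000), (29/10000), (559/1000), 1, 1⟩])
    (.leaf [⟨1, (6563/12500), (18563/50000), (1651/5000), (1391/2500), 0, 1⟩,
      ⟨1, (34083/50000), (60841/100000), (2261/5000), (1309/2500), 0, 1⟩,
      ⟨3, 0, (34083/50000), (511/2500), (5577/10000), 1, 1⟩])

/-- a node of the subdivision -/
def treeOneA_5 : Tree P1 :=
  .splitS (6043/10000) treeOneA_7 treeOneA_8

/-- a group of boxes -/
def treeOneA_6 : Tree P1 :=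
  .splitS (6043/10000)
    (.splitD (661/2500)
    (.leaf [⟨1, (24137/50000), (6827/20000), (351/1000), (4771/10000), (1/15625), 1⟩,
      ⟨1, (14439/25000), (53227/100000), (417/1000), (4481/10000), (21537/500000), 1⟩,
      ⟨3, 0, (14439/25000), (607/10000), (553/1000), 1, 1⟩])
    (.leaf [⟨1, (4643/10000), (32831/100000), (471/1250), (4503/10000), 0, 1⟩,
      ⟨3, 0, (4643/10000), (639/10000), (587/1250), 1, 1⟩]))
    (.leaf [⟨1, (48641/100000), (17197/50000), (3747/10000), (5311/10000), (26627/1000000), 1⟩,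
      ⟨1, (30193/50000), (54829/100000), (607/1250), (203/400), 0, 1⟩,
      ⟨3, 0, (30193/50000), (1449/5000), (5559/10000), 1, 1⟩])

/-- a node of the subdivision -/
def treeOneA_3 : Tree P1 :=
  .splitD (2363/10000) treeOneA_5 treeOneA_6

/-- a group of boxes -/
def treeOneA_4 : Tree P1 :=
  .splitD (218/625)
    (.splitS (6043/10000)
    (.leaf [⟨1, (407/1000), (28779/100000), (2097/5000), (4183/10000), 0, 1⟩,
      ⟨1, (45279/100000), (861/2000), (4577/10000), (919/2500), (541/1250), 1⟩,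
      ⟨3, 0, (45279/100000), (1097/2000), (4881/10000), 1, 1⟩])
    (.leaf [⟨1, (9361/20000), (4137/12500), (453/1000), (4591/10000), 0, 1⟩,
      ⟨1, (53673/100000), (12589/25000), (1067/2000), (527/1250), (1447/10000), 1⟩,
      ⟨3, 0, (53673/100000), (759/1250), (521/1000), 1, 1⟩]))
    (.splitS (6043/10000)
    (.leaf [⟨1, (1104/3125), (24981/100000), (1191/2500), (3231/10000), 0, 1⟩,
      ⟨3, 0, (1104/3125), (623/1000), (4221/10000), 1, 1⟩])
    (.leaf [⟨1, (20453/50000), (1157/4000), (4991/10000), (2397/5000), 0, 1⟩,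
      ⟨3, 0, (20453/50000), (1059/10000), (1239/2500), 1, 1⟩]))

/-- a node of the subdivision -/
def treeOneA_1 : Tree P1 :=
  .splitD (117/400) treeOneA_3 treeOneA_4

/-- a group of boxes -/
def treeOneA_9 : Tree P1 :=
  .splitD (4613/10000)
    (.splitS (6043/10000)
    (.leaf [⟨1, (13467/50000), (3809/20000), (5149/10000), (2709/10000), 0, 1⟩,
      ⟨3, 0, (13467/50000), (1/80), (1913/5000), 1, 1⟩])
    (.leaf [⟨1, (8417/25000), (23807/100000), (1379/2500), (3339/10000), (83/1000), 1⟩,
      ⟨3, 0, (8417/25000), (247/2500), (1263/2500), 1, 1⟩]))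
    (.splitS (6043/10000)
    (.leaf [⟨1, (15079/100000), (5331/50000), (1083/2000), (259/1000), 0, 1⟩,
      ⟨1, (20263/100000), (893/5000), (2711/5000), (1961/10000), (361/500), 1⟩,
      ⟨3, 0, (20263/100000), (679/5000), (1753/5000), 1, 1⟩])
    (.leaf [⟨1, (25633/100000), (29/160), (367/625), (733/2500), (561/5000), 1⟩,
      ⟨3, 0, (25633/100000), (114/625), (1913/5000), 1, 1⟩]))

/-- a group of boxes -/
def treeOneA_15 : Tree P1 :=
  .splitS (231/400)
    (.splitD (1329/2500)
    (.leaf [⟨1, (1171/10000), (207/2500), (267/500), (191/2000), (3609/10000), 1⟩,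
      ⟨3, 0, (1171/10000), (341/5000), (171/10000), 1, 1⟩])
    (.leaf [⟨1, (213/5000), (753/25000), (1113/2000), (219/2500), (331/2500), 1⟩,
      ⟨3, 0, (213/5000), (767/2000), (1703/10000), 1, 1⟩]))
    (.leaf [⟨1, (15617/100000), (11043/100000), (5703/10000), (43/250), (2201/10000), 1⟩,
      ⟨3, 0, (15617/100000), (283/625), (2281/10000), 1, 1⟩])

/-- a group of boxes -/
def treeOneA_16 : Tree P1 :=
  .splitS (231/400)
    (.splitD (2799/5000)
    (.splitS (1409/2500)
    (.splitD (691/1250)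
    (.splitS (1113/2000)
    (.skip)
    (.leaf [⟨0, 0, 0, (7681/10000), (603/10000), 1, 1⟩]))
    (.skip))
    (.leaf [⟨1, (5503/100000), (3891/100000), (353/625), (231/10000), (3363/10000), 1⟩,
      ⟨3, 0, (5503/100000), (1889/10000), (1783/10000), 1, 1⟩]))
    (.skip))
    (.splitD (2799/5000)
    (.leaf [⟨1, (12381/100000), (1751/20000), (2843/5000), (223/2000), (329/1000), 1⟩,
      ⟨3, 0, (12381/100000), (753/1250), (319/2000), 1, 1⟩])
    (.leaf [⟨1, (333/6250), (3767/100000), (5793/10000), (289/5000), (1627/5000), 1⟩,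
      ⟨3, 0, (333/6250), (61/500), (303/2500), 1, 1⟩]))

/-- a node of the subdivision -/
def treeOneA_13 : Tree P1 :=
  .splitD (5457/10000) treeOneA_15 treeOneA_16

/-- a group of boxes -/
def treeOneA_14 : Tree P1 :=
  .leaf [⟨1, (14651/100000), (259/2500), (2991/5000), (1063/5000), (42571/1000000), 1⟩,
      ⟨1, (22517/100000), (4749/25000), (5817/10000), (2319/10000), (6677/10000), 1⟩,
      ⟨3, 0, (22517/100000), (3601/10000), (783/2500), 1, 1⟩]

/-- a node of the subdivision -/
def treeOneA_11 : Tree P1 :=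
  .splitS (6043/10000) treeOneA_13 treeOneA_14

/-- a group of boxes -/
def treeOneA_17 : Tree P1 :=
  .splitD (6019/10000)
    (.splitS (231/400)
    (.skip)
    (.splitD (5879/10000)
    (.splitS (5911/10000)
    (.skip)
    (.leaf [⟨1, (483/12500), (683/25000), (5803/10000), (113/5000), (1259/10000), 1⟩,
      ⟨3, 0, (483/12500), (461/2500), (597/10000), 1, 1⟩]))
    (.skip)))
    (.skip)

/-- a group of boxes -/
def treeOneA_18 : Tree P1 :=
  .splitD (6019/10000)
    (.splitS (3149/5000)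
    (.splitD (5879/10000)
    (.leaf [⟨1, (11591/100000), (2049/25000), (6001/10000), (1131/10000), (1279/5000), 1⟩,
      ⟨3, 0, (11591/100000), (1567/5000), (3323/10000), 1, 1⟩])
    (.leaf [⟨1, (3733/100000), (33/1250), (5979/10000), (49/1000), (883/5000), 1⟩,
      ⟨1, (1497/25000), (499/10000), (1501/2500), (227/10000), (4913/10000), 1⟩,
      ⟨3, 0, (1497/25000), (1289/10000), (389/2500), 1, 1⟩]))
    (.leaf [⟨1, (14929/100000), (2639/25000), (3101/5000), (353/2000), (3313/10000), 1⟩,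
      ⟨3, 0, (14929/100000), (383/10000), (67/2500), 1, 1⟩]))
    (.splitS (3149/5000)
    (.skip)
    (.splitD (77/125)
    (.leaf [⟨0, 0, 0, (1567/2500), (591/2500), (7819/10000), 1⟩])
    (.skip)))

/-- a node of the subdivision -/
def treeOneA_12 : Tree P1 :=
  .splitS (6043/10000) treeOneA_17 treeOneA_18

/-- a node of the subdivision -/
def treeOneA_10 : Tree P1 :=
  .splitD (2869/5000) treeOneA_11 treeOneA_12

/-- a node of the subdivision -/
def treeOneA_2 : Tree P1 :=
  .splitD (207/400) treeOneA_9 treeOneA_10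

/-- a node of the subdivision -/
def treeOneA : Tree P1 :=
  .splitD (81/200) treeOneA_1 treeOneA_2

/-- a group of boxes -/
def treeOneB_5 : Tree P1 :=
  .splitS (1399/2000)
    (.splitD (1/4)
    (.leaf [⟨1, (9/16), (1591/4000), (3763/10000), (1259/2000), (1617/500000), 1⟩,
      ⟨1, (4541/6250), (64973/100000), (5593/10000), (5671/10000), 0, 1⟩,
      ⟨3, 0, (4541/6250), (6551/10000), (6111/10000), 1, 1⟩])
    (.leaf [⟨1, (9/16), (1591/4000), (4109/10000), (237/400), (10623/1000000), 1⟩,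
      ⟨1, (69539/100000), (12649/20000), (299/500), (5073/10000), 0, 1⟩,
      ⟨3, 0, (69539/100000), (179/5000), (981/2000), 1, 1⟩]))
    (.leaf [⟨1, (9/16), (1591/4000), (801/2000), (6353/10000), (9973/1000000), 1⟩,
      ⟨1, (71507/100000), (16083/25000), (3097/5000), (5523/10000), 0, 1⟩,
      ⟨2, 0, (36627/50000), (1577/2500), (2823/5000), (9/125), 1⟩])

/-- a group of boxes -/
def treeOneB_6 : Tree P1 :=
  .splitS (1399/2000)
    (.leaf [⟨1, (25781/50000), (1823/5000), (4723/10000), (5983/10000), 0, 1⟩,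
      ⟨1, (15259/25000), (28249/50000), (5977/10000), (2417/5000), (7327/500000), 1⟩,
      ⟨3, 0, (15259/25000), (3581/5000), (3063/5000), 1, 1⟩])
    (.leaf [⟨1, (27843/50000), (2461/6250), (1011/2000), (2947/5000), 0, 1⟩,
      ⟨1, (8129/12500), (3027/5000), (1681/2500), (324/625), 0, 1⟩,
      ⟨2, 0, (8377/12500), (1443/2000), (259/500), (1133/10000), 1⟩])

/-- a node of the subdivision -/
def treeOneB_3 : Tree P1 :=
  .splitD (7/25) treeOneB_5 treeOneB_6

/-- a group of boxes -/
def treeOneB_4 : Tree P1 :=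
  .splitD (2/5)
    (.splitS (1399/2000)
    (.leaf [⟨1, (15/32), (16573/50000), (1347/2500), (328/625), (143/2500), 1⟩,
      ⟨1, (13667/25000), (50921/100000), (376/625), (2453/5000), (2489/5000), 1⟩,
      ⟨3, 0, (13667/25000), (807/5000), (289/500), 1, 1⟩])
    (.splitD (37/100)
    (.leaf [⟨1, (441/800), (38979/100000), (2817/5000), (591/1000), 0, 1⟩,
      ⟨3, 0, (441/800), (3317/5000), (753/1250), 1, 1⟩])
    (.leaf [⟨1, (21/40), (37123/100000), (1539/2500), (1253/2000), 0, 1⟩,
      ⟨3, 0, (21/40), (5147/10000), (6849/10000), 1, 1⟩])))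
    (.leaf [⟨1, (81/200), (14319/50000), (2897/5000), (4467/10000), 0, 1⟩,
      ⟨1, (12129/25000), (2793/6250), (3017/5000), (4931/10000), (2829/5000), 1⟩,
      ⟨3, 0, (12129/25000), (198/625), (1027/2000), 1, 1⟩])

/-- a node of the subdivision -/
def treeOneB_1 : Tree P1 :=
  .splitD (17/50) treeOneB_3 treeOneB_4

/-- a group of boxes -/
def treeOneB_7 : Tree P1 :=
  .splitD (13/25)
    (.leaf [⟨1, (33/100), (4667/20000), (6131/10000), (3893/10000), 0, 1⟩,
      ⟨1, (20719/50000), (37457/100000), (1251/2000), (4067/10000), (5057/10000), 1⟩,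
      ⟨3, 0, (20719/50000), (6639/10000), (2641/5000), 1, 1⟩])
    (.leaf [⟨1, (22313/100000), (7889/50000), (6547/10000), (1497/5000), (193/1250), 1⟩,
      ⟨1, (15463/50000), (13483/50000), (6471/10000), (207/625), (5133/10000), 1⟩,
      ⟨3, 0, (15463/50000), (1139/2000), (304/625), 1, 1⟩])

/-- a group of boxes -/
def treeOneB_9 : Tree P1 :=
  .splitS (1399/2000)
    (.splitD (61/100)
    (.leaf [⟨1, (9141/50000), (12927/100000), (6451/10000), (2527/10000), (339/1250), 1⟩,
      ⟨3, 0, (9141/50000), (127/625), (1407/5000), 1, 1⟩])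
    (.leaf [⟨1, (81/800), (7159/100000), (1631/2500), (521/5000), (543/2000), 1⟩,
      ⟨1, (18211/100000), (7367/50000), (3237/5000), (3/625), (5283/10000), 1⟩,
      ⟨3, 0, (18211/100000), (2959/5000), (4283/10000), 1, 1⟩]))
    (.leaf [⟨1, (153/800), (13523/100000), (833/1250), (67/250), (761/5000), 1⟩,
      ⟨1, (2809/10000), (24029/100000), (3403/5000), (321/1250), (4539/10000), 1⟩,
      ⟨3, 0, (2809/10000), (193/250), (5031/10000), 1, 1⟩])

/-- a group of boxes -/
def treeOneB_10 : Tree P1 :=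
  .splitS (1399/2000)
    (.splitD (67/100)
    (.splitS (3387/5000)
    (.skip)
    (.leaf [⟨0, 0, 0, (1687/2500), (383/5000), (749/1250), 1⟩]))
    (.skip))
    (.splitD (67/100)
    (.leaf [⟨0, 0, 0, (7083/10000), (429/2000), (2983/5000), 1⟩])
    (.splitS (1801/2500)
    (.skip)
    (.leaf [⟨0, 0, 0, (7073/10000), (229/1250), (2781/5000), 1⟩])))

/-- a node of the subdivision -/
def treeOneB_8 : Tree P1 :=
  .splitD (16/25) treeOneB_9 treeOneB_10

/-- a node of the subdivision -/
def treeOneB_2 : Tree P1 :=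
  .splitD (29/50) treeOneB_7 treeOneB_8

/-- a node of the subdivision -/
def treeOneB : Tree P1 :=
  .splitD (23/50) treeOneB_1 treeOneB_2

/-- a group of boxes -/
def treeOneC_5 : Tree P1 :=
  .splitS (3993/5000)
    (.splitD (461/1250)
    (.leaf [⟨1, (57203/100000), (40449/100000), (1159/2000), (3317/5000), 0, 1⟩,
      ⟨2, 0, (30941/50000), (7567/10000), (3947/10000), 0, 1⟩])
    (.leaf [⟨1, (1593/3125), (7209/20000), (1653/2500), (1211/2000), 0, 1⟩,
      ⟨2, 0, (5533/10000), (3677/5000), (5421/10000), (2213/10000), 1⟩]))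
    (.leaf [⟨1, (26367/50000), (37289/100000), (6319/10000), (6671/10000), 0, 1⟩,
      ⟨2, 0, (5793/10000), (1669/2000), (5837/10000), 0, 1⟩])

/-- a group of boxes -/
def treeOneC_9 : Tree P1 :=
  .splitS (771/1000)
    (.splitD (4719/10000)
    (.leaf [⟨1, (47859/100000), (33841/100000), (6639/10000), (2751/5000), 0, 1⟩,
      ⟨3, 0, (47859/100000), (317/2000), (687/1250), 1, 1⟩])
    (.leaf [⟨1, (44741/100000), (31637/100000), (7197/10000), (4119/10000), 0, 1⟩,
      ⟨3, 0, (44741/100000), (4971/10000), (4093/10000), 1, 1⟩]))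
    (.leaf [⟨1, (11571/25000), (4091/12500), (1787/2500), (1113/2000), (36863/1000000), 1⟩,
      ⟨2, 0, (49547/100000), (2007/2500), (5403/10000), (63/400), 1⟩])

/-- a group of boxes -/
def treeOneC_10 : Tree P1 :=
  .splitS (771/1000)
    (.splitD (5407/10000)
    (.leaf [⟨1, (10047/25000), (28417/100000), (7223/10000), (3833/10000), 0, 1⟩,
      ⟨3, 0, (10047/25000), (1771/2500), (1191/2500), 1, 1⟩])
    (.leaf [⟨1, (34531/100000), (24417/100000), (3611/5000), (561/2500), 0, 1⟩,
      ⟨3, 0, (34531/100000), (1269/2500), (1617/2500), 1, 1⟩]))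
    (.splitD (5407/10000)
    (.leaf [⟨1, (43059/100000), (30447/100000), (7487/10000), (2269/5000), (476/15625), 1⟩,
      ⟨3, 0, (43059/100000), (149/400), (5757/10000), 1, 1⟩])
    (.leaf [⟨1, (7703/20000), (13617/50000), (473/625), (4789/10000), (2457/1000000), 1⟩,
      ⟨3, 0, (7703/20000), (37/50), (3041/10000), 1, 1⟩]))

/-- a node of the subdivision -/
def treeOneC_7 : Tree P1 :=
  .splitD (5063/10000) treeOneC_9 treeOneC_10

/-- a group of boxes -/
def treeOneC_8 : Tree P1 :=
  .splitD (5063/10000)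
    (.leaf [⟨1, (47827/100000), (33819/100000), (1431/2000), (5617/10000), 0, 1⟩,
      ⟨2, 0, (50319/100000), (4009/5000), (93/200), 0, 1⟩])
    (.leaf [⟨1, (39843/100000), (28173/100000), (7497/10000), (857/2500), 0, 1⟩,
      ⟨2, 0, (42889/100000), (61/80), (1083/2500), (1371/10000), 1⟩])

/-- a node of the subdivision -/
def treeOneC_6 : Tree P1 :=
  .splitS (3993/5000) treeOneC_7 treeOneC_8

/-- a node of the subdivision -/
def treeOneC_3 : Tree P1 :=
  .splitD (7/16) treeOneC_5 treeOneC_6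

/-- a group of boxes -/
def treeOneC_4 : Tree P1 :=
  .leaf [⟨1, (37187/100000), (5259/20000), (7359/10000), (3757/5000), 0, 1⟩,
      ⟨1, (42499/100000), (39931/100000), (4019/5000), (6553/10000), 0, 1⟩,
      ⟨2, 0, (79/160), (2027/2500), (6039/10000), 0, 1⟩]

/-- a node of the subdivision -/
def treeOneC_1 : Tree P1 :=
  .splitS (2113/2500) treeOneC_3 treeOneC_4

/-- a group of boxes -/
def treeOneC_17 : Tree P1 :=
  .splitS (771/1000)
    (.leaf [⟨1, (25601/100000), (18103/100000), (3661/5000), (1653/5000), 0, 1⟩,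
      ⟨1, (16557/50000), (29597/100000), (359/500), (3593/10000), (1983/5000), 1⟩,
      ⟨3, 0, (16557/50000), (77/5000), (5709/10000), 1, 1⟩])
    (.splitD (3047/5000)
    (.leaf [⟨1, (1068/3125), (12083/50000), (7613/10000), (821/2000), 0, 1⟩,
      ⟨3, 0, (1068/3125), (913/10000), (1/500), 1, 1⟩])
    (.leaf [⟨1, (1447/5000), (1279/6250), (931/1250), (4189/10000), 0, 1⟩,
      ⟨3, 0, (1447/5000), (63/1250), (481/1000), 1, 1⟩]))

/-- a group of boxes -/
def treeOneC_18 : Tree P1 :=
  .splitS (771/1000)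
    (.splitD (3391/5000)
    (.leaf [⟨0, 0, 0, (1871/2500), (927/2500), (1501/2500), 1⟩])
    (.leaf [⟨0, 0, 0, (7517/10000), (2219/10000), (5429/10000), 1⟩]))
    (.splitD (3391/5000)
    (.leaf [⟨1, (12067/50000), (3413/20000), (7743/10000), (351/1000), (679/10000), 1⟩,
      ⟨3, 0, (12067/50000), (367/10000), (4463/10000), 1, 1⟩])
    (.leaf [⟨0, 0, 0, (3811/5000), (223/625), (343/625), 1⟩]))

/-- a node of the subdivision -/
def treeOneC_15 : Tree P1 :=
  .splitD (3219/5000) treeOneC_17 treeOneC_18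

/-- a group of boxes -/
def treeOneC_19 : Tree P1 :=
  .leaf [⟨1, (15583/50000), (11019/50000), (77/100), (5483/10000), 0, 1⟩,
      ⟨2, 0, (35113/100000), (3879/5000), (4689/10000), (2103/10000), 1⟩]

/-- a group of boxes -/
def treeOneC_20 : Tree P1 :=
  .splitS (8233/10000)
    (.splitD (3391/5000)
    (.leaf [⟨1, (27151/100000), (19199/100000), (7879/10000), (2019/5000), (443/2500), 1⟩,
      ⟨3, 0, (27151/100000), (7847/10000), (951/5000), 1, 1⟩])
    (.leaf [⟨0, 0, 0, (1983/2500), (953/2000), (5193/10000), 1⟩]))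
    (.splitD (3391/5000)
    (.leaf [⟨1, (29161/100000), (1031/5000), (8163/10000), (4691/10000), 0, 1⟩,
      ⟨3, 0, (29161/100000), (8849/10000), (3001/10000), 1, 1⟩])
    (.leaf [⟨0, 0, 0, (4083/5000), (251/500), (2501/5000), 1⟩]))

/-- a node of the subdivision -/
def treeOneC_16 : Tree P1 :=
  .splitD (3219/5000) treeOneC_19 treeOneC_20

/-- a node of the subdivision -/
def treeOneC_13 : Tree P1 :=
  .splitS (3993/5000) treeOneC_15 treeOneC_16

/-- a group of boxes -/
def treeOneC_14 : Tree P1 :=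
  .splitS (3993/5000)
    (.splitD (7813/10000)
    (.splitS (771/1000)
    (.skip)
    (.splitD (7469/10000)
    (.leaf [⟨0, 0, 0, (3843/5000), (669/2500), (4833/10000), 1⟩])
    (.skip)))
    (.skip))
    (.splitD (7813/10000)
    (.splitS (8233/10000)
    (.splitD (7469/10000)
    (.leaf [⟨0, 0, 0, (8039/10000), (207/625), (987/2500), (4863/5000)⟩])
    (.leaf [⟨0, 0, 0, (8069/10000), (1603/10000), (1723/5000), 1⟩]))
    (.leaf [⟨0, 0, 0, (4139/5000), (1499/5000), (947/2500), 1⟩]))
    (.skip))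

/-- a node of the subdivision -/
def treeOneC_11 : Tree P1 :=
  .splitD (57/80) treeOneC_13 treeOneC_14

/-- a group of boxes -/
def treeOneC_21 : Tree P1 :=
  .splitS (4409/5000)
    (.splitD (3219/5000)
    (.leaf [⟨1, (6901/20000), (24399/100000), (1037/1250), (4527/10000), 0, 1⟩,
      ⟨2, 0, (36783/100000), (2159/2500), (1961/5000), (44451/1000000), 1⟩])
    (.leaf [⟨1, (3369/12500), (9529/50000), (8451/10000), (1063/2500), 0, 1⟩,
      ⟨2, 0, (924/3125), (8353/10000), (5851/10000), (1509/10000), 1⟩]))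
    (.leaf [⟨1, (7187/25000), (2541/12500), (8563/10000), (2409/5000), 0, 1⟩,
      ⟨2, 0, (16093/50000), (4283/5000), (2009/5000), (267/2500), 1⟩])

/-- a group of boxes -/
def treeOneC_25 : Tree P1 :=
  .splitS (4323/5000)
    (.leaf [⟨0, 0, 0, (529/625), (4087/10000), (3783/10000), 1⟩])
    (.leaf [⟨1, (598/3125), (13531/100000), (8487/10000), (423/1250), (567/10000), 1⟩,
      ⟨2, 0, (22223/100000), (4223/5000), (2591/5000), (893/5000), 1⟩])

/-- a group of boxes -/
def treeOneC_26 : Tree P1 :=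
  .splitS (4323/5000)
    (.splitD (8157/10000)
    (.leaf [⟨0, 0, 0, (8401/10000), (3873/10000), (3317/10000), 1⟩])
    (.skip))
    (.splitD (8157/10000)
    (.leaf [⟨0, 0, 0, (8683/10000), (2721/10000), (687/2500), 1⟩])
    (.leaf [⟨0, 0, 0, (8627/10000), (1359/5000), (133/500), 1⟩]))

/-- a node of the subdivision -/
def treeOneC_23 : Tree P1 :=
  .splitD (7813/10000) treeOneC_25 treeOneC_26

/-- a group of boxes -/
def treeOneC_24 : Tree P1 :=
  .splitD (7813/10000)
    (.leaf [⟨1, (20503/100000), (7249/50000), (353/400), (221/625), 0, 1⟩,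
      ⟨2, 0, (22907/100000), (2189/2500), (2997/5000), (1623/10000), 1⟩])
    (.leaf [⟨0, 0, 0, (8921/10000), (122/625), (2299/10000), 1⟩])

/-- a node of the subdivision -/
def treeOneC_22 : Tree P1 :=
  .splitS (4409/5000) treeOneC_23 treeOneC_24

/-- a node of the subdivision -/
def treeOneC_12 : Tree P1 :=
  .splitD (57/80) treeOneC_21 treeOneC_22

/-- a node of the subdivision -/
def treeOneC_2 : Tree P1 :=
  .splitS (2113/2500) treeOneC_11 treeOneC_12

/-- a node of the subdivision -/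
def treeOneC : Tree P1 :=
  .splitD (23/40) treeOneC_1 treeOneC_2

end Vale.Agent.P322.Box
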