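import Vale.Agent.P322.Scalar.Box.Common
import Vale.Agent.P322.Scalar.Lines
import Vale.Agent.P322.Scalar.Mono

/-!
Box certificates for the first hypothesis.
-/

namespace Vale.Agent.P322.Box

open Real Set Vale.Agent.P322.Num

/-- a piece of a chain: `kind` 0 monotone from zero, 1 interior piece up to `mb`, 2 edge piece,
3 monotone from the current mean -/
structure P1 where
  kind : ℕ
  mb : ℚ
  mp : ℚ
  z : ℚ
  t : ℚ
  c : ℚ
  g : ℚ

/-- the coefficient of `x` -/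
def coefC (c t g ma dl : ℚ) : ℚ := (c * min (1 / 2) (dl ^ 2 / (1 - ma ^ 2)) + curveK t) * g

/-- lower bound of the certificate at a corner -/
def cornerOne (p : P1) (c C mp dp pl s d m : ℚ) : ℚ :=
  (1 - c) * lineU p.z * d - ((1 - c) * lineL p.z + C) * (entHi s - pl) + c * planeLo mp dp m d
    + C * hbarLo m d - curveB p.t - s * atHi s

/-- the four corners in `(s, d)` -/
def cornersOne (p : P1) (c C mp dp : ℚ) (pl mOf : ℚ → ℚ) (sl sh dl dh : ℚ) : Bool :=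
  decide (0 ≤ cornerOne p c C mp dp (pl (mOf dl)) sl dl (mOf dl))
    && decide (0 ≤ cornerOne p c C mp dp (pl (mOf dl)) sh dl (mOf dl))
    && decide (0 ≤ cornerOne p c C mp dp (pl (mOf dh)) sl dh (mOf dh))
    && decide (0 ≤ cornerOne p c C mp dp (pl (mOf dh)) sh dh (mOf dh))

/-- lower bound of the tangent of `phi` in `m ^ 2` -/
def plSq (mp m : ℚ) : ℚ :=
  phiLo mp + (if mp ^ 2 ≤ m ^ 2 then atLo mp else atHi mp) / (2 * mp) * (m ^ 2 - mp ^ 2)

/-- lower bound of the tangent of `phi` in `m` -/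
def plLin (mp m : ℚ) : ℚ := phiLo mp + (if mp ≤ m then atLo mp else atHi mp) * (m - mp)

/-- conditions on a rectangle -/
def okBox (sl sh dl dh : ℚ) : Bool :=
  decide (0 ≤ sl ∧ sl ≤ sh ∧ sh < 1 ∧ 0 ≤ dl ∧ dl ≤ dh ∧ dh < 1)

/-- conditions on the parameters -/
def okPar (c t g ma : ℚ) : Bool :=
  decide (0 ≤ c ∧ c ≤ 1 ∧ 0 ≤ g ∧ g ≤ 1 ∧ 0 ≤ ma ∧ ma < 1) && curveOK t

/-- monotone from zero -/
def ok0 (p : P1) (sl sh dl dh : ℚ) : Bool :=
  let C := coefC p.c p.t p.g 0 dl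
  let a := 2 * p.c * dl ^ 2
  let K := (1 - p.c) * lineL p.z + C
  let u := 1 / (1 - dl ^ 2)
  okPar p.c p.t p.g 0 && lineOK p.z
    && decide ((C ≤ 2 * a * u ∨ C ^ 2 ≤ 4 * a * K) ∧ 0 ≤ a * u ^ 2 - C * u + K)
    && cornersOne p p.c C 0 ((dl + dh) / 2) (fun _ => 0) (fun _ => 0) sl sh dl dh

/-- interior piece -/
def ok1 (p : P1) (ma sl sh dl dh : ℚ) : Bool :=
  let C := coefC p.c p.t p.g ma dl
  let dp := (dl + dh) / 2
  okPar p.c p.t p.g ma && lineOK p.z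
    && decide (0 ≤ p.mb ∧ p.mb + dh < 1 ∧ ma + dh < 1 ∧ 0 < p.mp ∧ p.mp + dp < 1)
    && cornersOne p p.c C p.mp dp (plSq p.mp) (fun _ => ma) sl sh dl dh
    && cornersOne p p.c C p.mp dp (plSq p.mp) (fun _ => p.mb) sl sh dl dh

/-- edge piece -/
def ok2 (p : P1) (ma sl sh dl dh : ℚ) : Bool :=
  let C := coefC p.c p.t p.g ma dl
  let dp := (dl + dh) / 2
  okPar p.c p.t p.g ma && lineOK p.z
    && decide (ma + dh < 1 ∧ 0 ≤ p.mp ∧ p.mp + dp < 1)
    && cornersOne p p.c C p.mp dp (plLin p.mp) (fun _ => ma) sl sh dl dh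
    && cornersOne p p.c C p.mp dp (plLin p.mp) (fun d => 1 - d) sl sh dl dh

/-- monotone from `ma` -/
def ok3 (p : P1) (ma sl sh dl dh : ℚ) : Bool :=
  let C := coefC 1 p.t p.g ma dl
  let e := 1 - ma ^ 2
  okPar 1 p.t p.g ma
    && decide (ma + dh < 1 ∧
      C * ((e ^ 2 - 2 * dl ^ 2 * (1 + ma ^ 2) + dl ^ 4) + e ^ 2) ≤ 4 * e ^ 2)
    && cornersOne p 1 C ma ((dl + dh) / 2) (fun _ => phiLo ma) (fun _ => ma) sl sh dl dh

/-- a chain of pieces covers all means from `ma` on -/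
def chainOne : List P1 → ℚ → ℚ → ℚ → ℚ → ℚ → Bool
  | [], ma, sl, _, _, _ => decide (0 ≤ ma ∧ ma < 1 ∧ entHi sl ≤ phiLo ma)
  | p :: ps, ma, sl, sh, dl, dh =>
    match p.kind with
    | 0 => ps.isEmpty && decide (ma = 0) && ok0 p sl sh dl dh
    | 1 => ok1 p ma sl sh dl dh && chainOne ps p.mb sl sh dl dh
    | 2 => ps.isEmpty && ok2 p ma sl sh dl dh
    | _ => ps.isEmpty && ok3 p ma sl sh dl dh

/-- the check of one box -/
def chkOne (ps : List P1) (sl sh dl dh : ℚ) : Bool :=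
  okBox sl sh dl dh && chainOne ps 0 sl sh dl dh

/-- What a box proves at `(s, d)`. -/
def GoalOne (s d : ℝ) : Prop :=
  ∀ m : ℝ, 0 ≤ m → 0 ≤ d → m + d < 1 → 0 < ent s - phi m → gapPhi m d ≤ phi s →
    ScalarCase gOne m d (ent s - phi m)

/-! ## Soundness -/

/-- the certificate as a function of `E = ent s`, with a lower bound `pl` of `phi m`, a lower
bound `K` of the dissipation and the average entropy `hb` -/
noncomputable def certVal (p : P1) (c C : ℚ) (E d pl K hb : ℝ) : ℝ :=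
  (1 - (c : ℝ)) * (lineU p.z : ℝ) * d - ((1 - (c : ℝ)) * (lineL p.z : ℝ) + C) * (E - pl)
    + (c : ℝ) * K + (C : ℝ) * hb - (curveB p.t : ℝ) - curve E

lemma coefC_nonneg {c t g ma dl : ℚ} (h : okPar c t g ma = true) : 0 ≤ coefC c t g ma dl := by
  simp only [okPar, Bool.and_eq_true, decide_eq_true_eq] at h
  obtain ⟨⟨hc0, -, hg0, -, hma0, hma1⟩, ht⟩ := h
  have hk : 0 ≤ curveK t := by exact_mod_cast (curve_line ht).1
  have : 0 ≤ min (1 / 2) (dl ^ 2 / (1 - ma ^ 2)) :=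
    le_min (by norm_num) (div_nonneg (sq_nonneg _) (by nlinarith))
  exact mul_nonneg (add_nonneg (mul_nonneg hc0 this) hk) hg0

/-- Real coefficient facts. -/
lemma coefC_le {c t g ma dl : ℚ} (h : okPar c t g ma = true) :
    (coefC c t g ma dl : ℝ) ≤
      (c : ℝ) * ((min (1 / 2) (dl ^ 2 / (1 - ma ^ 2)) : ℚ) : ℝ) + 1 * (curveK t : ℝ) := by
  have hnn : 0 ≤ coefC c t g ma dl := coefC_nonneg h
  simp only [okPar, Bool.and_eq_true, decide_eq_true_eq] at h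
  obtain ⟨⟨hc0, -, hg0, hg1, hma0, hma1⟩, ht⟩ := h
  have hk : 0 ≤ curveK t := by exact_mod_cast (curve_line ht).1
  have hw : 0 ≤ c * min (1 / 2) (dl ^ 2 / (1 - ma ^ 2)) + curveK t :=
    add_nonneg (mul_nonneg hc0
      (le_min (by norm_num) (div_nonneg (sq_nonneg _) (by nlinarith)))) hk
  have : coefC c t g ma dl ≤ c * min (1 / 2) (dl ^ 2 / (1 - ma ^ 2)) + curveK t :=
    mul_le_of_le_one_right hw hg1
  rw [one_mul]
  exact_mod_cast this

/-- A nonnegative certificate proves the scalar inequality. -/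
lemma scalarCase_of_cert {p : P1} {c ma dl : ℚ} (hp : okPar c p.t p.g ma = true) {m d s K : ℝ}
    {P : ℝ} (hdl : 0 ≤ dl) (hm : (ma : ℝ) ≤ m) (hd : (dl : ℝ) ≤ d) (hmd : m + d < 1)
    (_hs : s ∈ Ico (0 : ℝ) 1) (hH : 0 < ent s - phi m) (hx : gapPhi m d ≤ phi s)
    (hP : P ≤ pairBound d (ent s - phi m)) (hK : K ≤ kerMD m d)
    (hv : 0 ≤ (1 - (c : ℝ)) * P + (c : ℝ) * K
      + (coefC c p.t p.g ma dl : ℝ) * ((ent (m + d) + ent (m - d)) / 2 - (ent s - phi m))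
      - (curveB p.t : ℝ) - curve (ent s)) :
    ScalarCase gOne m d (ent s - phi m) := by
  have hC := coefC_le (dl := dl) hp
  simp only [okPar, Bool.and_eq_true, decide_eq_true_eq] at hp
  obtain ⟨⟨hc0, hc1, -, -, hma0, hma1⟩, ht⟩ := hp
  have hma0' : (0 : ℝ) ≤ ma := by exact_mod_cast hma0
  have hdl' : (0 : ℝ) ≤ dl := by exact_mod_cast hdl
  have hm0 : 0 ≤ m := hma0'.trans hm
  have hd0 : 0 ≤ d := hdl'.trans hd
  have hH' : ent s - phi m ≤ (ent (m + d) + ent (m - d)) / 2 := by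
    unfold gapPhi at hx; simp only [ent] at *; linarith
  have hlt : (ent (m + d) + ent (m - d)) / 2 - (ent s - phi m) < log 2 := by
    have a := ent_le_log_two (show -1 ≤ m + d by linarith) hmd.le
    have b := ent_le_log_two (show -1 ≤ m - d by linarith) (show m - d ≤ 1 by linarith)
    linarith
  have hw : ((min (1 / 2) (dl ^ 2 / (1 - ma ^ 2)) : ℚ) : ℝ) ≤
      min (1 / 2) (d ^ 2 / (1 - m ^ 2)) := by
    push_cast
    refine min_le_min le_rfl ?_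
    have e1 : 0 < 1 - m ^ 2 := one_sub_sq_pos (by linarith) (by linarith)
    exact div_le_div₀ (sq_nonneg d) (pow_le_pow_left₀ hdl' hd 2) e1
      (sub_le_sub_left (pow_le_pow_left₀ hma0' hm 2) 1)
  have key := combine (L₂ := (1 - m ^ 2 - d ^ 2) * curve ((ent s - phi m) / (1 - m ^ 2 - d ^ 2)))
    (f := 1) hm0 hd0 hmd hH hH' hP hK hw
    ((curve_line ht).2 _ (by linarith) hlt) le_rfl
    ⟨by exact_mod_cast hc0, by exact_mod_cast hc1⟩ ⟨zero_le_one, le_rfl⟩ hC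
  unfold ScalarCase
  refine le_trans (le_of_eq ?_) ((?_ : curve (ent s) ≤ _).trans key)
  · unfold gOne; rw [sub_add_cancel]
  · simp only [sub_self, zero_mul, add_zero, one_mul]
    linarith

/-- Corners bound the certificate. -/
lemma cornerOne_le {p : P1} {c C mp dp pl s d m : ℚ} {plR : ℝ} (hc0 : 0 ≤ c) (hc1 : c ≤ 1)
    (hC : 0 ≤ C) (hl : lineOK p.z = true ∨ c = 1)
    (hs0 : 0 ≤ s) (hs1 : s < 1) (hm : 0 ≤ m) (hd : 0 ≤ d) (hmd : m + d ≤ 1) (hmp : 0 ≤ mp)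
    (hdp : 0 ≤ dp) (hmdp : mp + dp < 1) (hpl : (pl : ℝ) ≤ plR)
    (h : 0 ≤ cornerOne p c C mp dp pl s d m) :
    0 ≤ certVal p c C (ent (s : ℝ)) d plR (planeAt (mp : ℝ) dp m d)
      ((ent ((m : ℝ) + d) + ent ((m : ℝ) - d)) / 2) := by
  have hcoef : (0 : ℝ) ≤ (1 - (c : ℝ)) * (lineL p.z : ℝ) + C := by
    refine add_nonneg ?_ (by exact_mod_cast hC)
    rcases hl with hl | hl
    · exact mul_nonneg (by rw [sub_nonneg]; exact_mod_cast hc1) (line_le hl).1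
    · subst hl; simp
  have a1 := le_entHi (s := s) (by linarith) hs1
  have a2 := le_atHi (s := s) (by linarith) hs1
  have a3 := planeLo_le (m := m) (d := d) hmp hdp hmdp
  have a4 := hbarLo_le hm hd hmd
  have hs0' : (0 : ℝ) ≤ s := by exact_mod_cast hs0
  have hs1' : (s : ℝ) < 1 := by exact_mod_cast hs1
  have h' : (0 : ℝ) ≤ (cornerOne p c C mp dp pl s d m : ℝ) := by exact_mod_cast h
  rw [cornerOne] at h'
  push_cast at h'
  unfold certVal
  rw [curve_ent hs0' hs1']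
  have b1 := mul_le_mul_of_nonneg_left (sub_le_sub a1 hpl) hcoef
  have b2 := mul_le_mul_of_nonneg_left a2 hs0'
  have b3 := mul_le_mul_of_nonneg_left a3 (show (0 : ℝ) ≤ c by exact_mod_cast hc0)
  have b4 := mul_le_mul_of_nonneg_left a4 (show (0 : ℝ) ≤ C by exact_mod_cast hC)
  linarith

lemma concaveOn_affine (a b : ℝ) {S : Set ℝ} (hS : Convex ℝ S) :
    ConcaveOn ℝ S fun t => a + b * t := by
  refine ⟨hS, fun x _ y _ u v _ _ huv => le_of_eq ?_⟩
  simp only [smul_eq_mul]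
  rw [show v = 1 - u by linarith]; ring

/-- The certificate at a fixed mean, or along the edge, is nonnegative once it is at the corners. -/
lemma cert_rect {p : P1} {c C : ℚ} {sl sh dl dh : ℝ} {pl K hb : ℝ → ℝ} (hsl : 0 ≤ sl) (hsh : sh < 1)
    (hC : (0 : ℝ) ≤ C)
    (hpl : ∃ a b : ℝ, ∀ t, pl t = a + b * t) (hK : ∃ a b : ℝ, ∀ t, K t = a + b * t)
    (hhb : ConcaveOn ℝ (Icc dl dh) hb)
    {s d : ℝ} (hs : s ∈ Icc sl sh) (hd : d ∈ Icc dl dh)
    (h : ∀ σ ∈ ({sl, sh} : Set ℝ), ∀ t ∈ ({dl, dh} : Set ℝ),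
      0 ≤ certVal p c C (ent σ) t (pl t) (K t) (hb t)) :
    0 ≤ certVal p c C (ent s) d (pl d) (K d) (hb d) := by
  have hs1 : s < 1 := hs.2.trans_lt hsh
  have hE : ent s ∈ Icc (ent sh) (ent sl) :=
    ⟨ent_strictAntiOn.antitoneOn ⟨hsl.trans hs.1, hs1.le⟩
        ⟨(hsl.trans hs.1).trans hs.2, hsh.le⟩ hs.2,
      ent_strictAntiOn.antitoneOn ⟨hsl, (hs.1.trans hs1.le)⟩ ⟨hsl.trans hs.1, hs1.le⟩ hs.1⟩
  refine nonneg_of_sepConcave₂ (f := fun E t => certVal p c C E t (pl t) (K t) (hb t))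
    (fun t _ => ?_) (fun E _ => ?_) hE hd
    (h sh (by simp) dl (by simp)) (h sh (by simp) dh (by simp))
    (h sl (by simp) dl (by simp)) (h sl (by simp) dh (by simp))
  · have hpos : 0 < ent sh :=
      ent_pos (by linarith [(hsl.trans hs.1).trans hs.2]) hsh
    have hcc : ConcaveOn ℝ (Icc (ent sh) (ent sl)) fun E => -curve E :=
      (curve_convexOn.subset (fun E hE => hpos.trans_le hE.1) (convex_Icc _ _)).neg
    refine ((concaveOn_affine ((1 - (c : ℝ)) * (lineU p.z : ℝ) * t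
      + ((1 - (c : ℝ)) * (lineL p.z : ℝ) + C) * pl t + (c : ℝ) * K t + (C : ℝ) * hb t
      - (curveB p.t : ℝ)) (-((1 - (c : ℝ)) * (lineL p.z : ℝ) + C))
      (convex_Icc _ _)).add hcc).congr fun E _ => ?_
    simp only [Pi.add_apply, certVal]; ring
  · obtain ⟨a1, b1, e1⟩ := hpl
    obtain ⟨a2, b2, e2⟩ := hK
    refine ((concaveOn_affine (-((1 - (c : ℝ)) * (lineL p.z : ℝ) + C) * (E - a1) + (c : ℝ) * a2
      - (curveB p.t : ℝ) - curve E)
      ((1 - (c : ℝ)) * (lineU p.z : ℝ) + ((1 - (c : ℝ)) * (lineL p.z : ℝ) + C) * b1 + (c : ℝ) * b2)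
      (convex_Icc _ _)).add (hhb.smul hC)).congr fun t _ => ?_
    simp only [Pi.add_apply, smul_eq_mul, certVal, e1, e2]; ring

/-- The four corners give the certificate on the rectangle, along `m = μ + ν * d`. -/
lemma cornersOne_sound {p : P1} {c C mp dp : ℚ} {plq mOf : ℚ → ℚ} {sl sh dl dh : ℚ}
    (h : cornersOne p c C mp dp plq mOf sl sh dl dh = true) (hb : okBox sl sh dl dh = true)
    (hc0 : 0 ≤ c) (hc1 : c ≤ 1) (hC : 0 ≤ C) (hl : lineOK p.z = true ∨ c = 1)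
    (hmp : 0 ≤ mp) (hdp : 0 ≤ dp) (hmdp : mp + dp < 1)
    {μ ν : ℝ} (hmOf : ∀ t : ℚ, (mOf t : ℝ) = μ + ν * t)
    (hm0 : ∀ t : ℚ, dl ≤ t → t ≤ dh → 0 ≤ mOf t ∧ mOf t + t ≤ 1)
    {pl : ℝ → ℝ} (hpl : ∀ t : ℚ, dl ≤ t → t ≤ dh → (plq (mOf t) : ℝ) ≤ pl ((mOf t : ℚ) : ℝ))
    (hplaff : ∃ a b : ℝ, ∀ t : ℝ, pl (μ + ν * t) = a + b * t)
    (hhb : ConcaveOn ℝ (Icc (dl : ℝ) dh)
      fun t => (ent (μ + ν * t + t) + ent (μ + ν * t - t)) / 2)
    {s d : ℝ} (hs : s ∈ Icc (sl : ℝ) sh) (hd : d ∈ Icc (dl : ℝ) dh) :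
    0 ≤ certVal p c C (ent s) d (pl (μ + ν * d)) (planeAt (mp : ℝ) dp (μ + ν * d) d)
      ((ent (μ + ν * d + d) + ent (μ + ν * d - d)) / 2) := by
  simp only [okBox, decide_eq_true_eq] at hb
  obtain ⟨b1, b2, b3, b4, b5, b6⟩ := hb
  simp only [cornersOne, Bool.and_eq_true, decide_eq_true_eq] at h
  obtain ⟨⟨⟨c1, c2⟩, c3⟩, c4⟩ := h
  have key : ∀ σ t : ℚ, 0 ≤ σ → σ < 1 → dl ≤ t → t ≤ dh →
      0 ≤ cornerOne p c C mp dp (plq (mOf t)) σ t (mOf t) →
      0 ≤ certVal p c C (ent (σ : ℝ)) t (pl (μ + ν * (t : ℝ)))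
        (planeAt (mp : ℝ) dp (μ + ν * (t : ℝ)) t)
        ((ent (μ + ν * (t : ℝ) + t) + ent (μ + ν * (t : ℝ) - t)) / 2) := by
    intro σ t h0 h1 h2 h3 h4
    have := cornerOne_le hc0 hc1 hC hl h0 h1 (hm0 t h2 h3).1 (b4.trans h2) (hm0 t h2 h3).2 hmp
      hdp hmdp (hpl t h2 h3) h4
    rwa [hmOf] at this
  refine cert_rect (pl := fun t => pl (μ + ν * t))
    (K := fun t => planeAt (mp : ℝ) dp (μ + ν * t) t)
    (hb := fun t => (ent (μ + ν * t + t) + ent (μ + ν * t - t)) / 2)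
    (by exact_mod_cast b1) (by exact_mod_cast b3) (by exact_mod_cast hC) hplaff
    ⟨kerMD (mp : ℝ) dp + planeM (mp : ℝ) dp * (μ - mp) - planeD (mp : ℝ) dp * dp,
      planeM (mp : ℝ) dp * ν + planeD (mp : ℝ) dp,
      fun t => by simp only [planeAt]; ring⟩ hhb hs hd ?_
  intro σ hσ t ht
  simp only [mem_insert_iff, mem_singleton_iff] at hσ ht
  rcases hσ with rfl | rfl <;> rcases ht with rfl | rfl
  · exact key sl dl b1 (b2.trans_lt b3) le_rfl b5 c1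
  · exact key sl dh b1 (b2.trans_lt b3) b5 le_rfl c3
  · exact key sh dl (b1.trans b2) b3 le_rfl b5 c2
  · exact key sh dh (b1.trans b2) b3 b5 le_rfl c4

variable {p : P1} {ma sl sh dl dh : ℚ}

/-- A certificate with a tangent of `phi` is at most the one of `scalarCase_of_cert`. -/
lemma scalarCase_of_line {c : ℚ} (hp : okPar c p.t p.g ma = true) (hl : lineOK p.z = true)
    {m d s pl K : ℝ} (hdl : 0 ≤ dl) (hm : (ma : ℝ) ≤ m) (hd : (dl : ℝ) ≤ d) (hmd : m + d < 1)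
    (hs : s ∈ Ico (0 : ℝ) 1) (hH : 0 < ent s - phi m) (hx : gapPhi m d ≤ phi s)
    (hpl : pl ≤ phi m) (hK : K ≤ kerMD m d)
    (hv : 0 ≤ certVal p c (coefC c p.t p.g ma dl) (ent s) d pl K
      ((ent (m + d) + ent (m - d)) / 2)) :
    ScalarCase gOne m d (ent s - phi m) := by
  have hC : (0 : ℝ) ≤ (coefC c p.t p.g ma dl : ℝ) := by exact_mod_cast coefC_nonneg hp
  have hdl' : (0 : ℝ) ≤ dl := by exact_mod_cast hdl
  obtain ⟨hl0, hline⟩ := line_le hl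
  have hP := hline d (ent s - phi m) (hdl'.trans hd) hH
  refine scalarCase_of_cert hp hdl hm hd hmd hs hH hx hP hK ?_
  simp only [okPar, Bool.and_eq_true, decide_eq_true_eq] at hp
  have hc1 : (0 : ℝ) ≤ 1 - c := by rw [sub_nonneg]; exact_mod_cast hp.1.2.1
  have := mul_le_mul_of_nonneg_left hpl (add_nonneg (mul_nonneg hc1 hl0) hC)
  unfold certVal at hv
  linarith

lemma box_facts (hb : okBox sl sh dl dh = true) :
    (0 : ℝ) ≤ sl ∧ (sh : ℝ) < 1 ∧ 0 ≤ dl ∧ dl ≤ dh ∧ dh < 1 ∧ 0 ≤ (dl + dh) / 2 := by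
  simp only [okBox, decide_eq_true_eq] at hb
  obtain ⟨b1, b2, b3, b4, b5, b6⟩ := hb
  exact ⟨by exact_mod_cast b1, by exact_mod_cast b3, b4, b5, b6, by linarith⟩

/-- concavity in the half difference at a fixed mean -/
lemma hhb_fixed {m : ℚ} (hm : 0 ≤ m) (hdl : 0 ≤ dl) (h : m + dh ≤ 1) :
    ConcaveOn ℝ (Icc (dl : ℝ) dh)
      fun t => (ent ((m : ℝ) + 0 * t + t) + ent ((m : ℝ) + 0 * t - t)) / 2 := by
  simp only [zero_mul, add_zero]
  exact concaveOn_hbar_d (by exact_mod_cast hdl) (by exact_mod_cast hm) (by exact_mod_cast h)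

theorem ok0_sound (h : ok0 p sl sh dl dh = true) (hb : okBox sl sh dl dh = true) {s d m : ℝ}
    (hs : s ∈ Icc (sl : ℝ) sh) (hd : d ∈ Icc (dl : ℝ) dh) (hm : 0 ≤ m) (hmd : m + d < 1)
    (hH : 0 < ent s - phi m) (hx : gapPhi m d ≤ phi s) :
    ScalarCase gOne m d (ent s - phi m) := by
  obtain ⟨hsl, hsh, hdl, hdd, hdh, hdp⟩ := box_facts hb
  simp only [ok0, Bool.and_eq_true, decide_eq_true_eq] at h
  obtain ⟨⟨⟨hp, hl⟩, hq⟩, hc4⟩ := h
  set C := coefC p.c p.t p.g 0 dl with hCdef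
  have hC : 0 ≤ C := coefC_nonneg hp
  have hpar := hp
  simp only [okPar, Bool.and_eq_true, decide_eq_true_eq] at hpar
  obtain ⟨⟨hc0, hc1, -, -, -, -⟩, -⟩ := hpar
  have hV := cornersOne_sound hc4 hb hc0 hc1 hC (Or.inl hl) le_rfl hdp (by linarith)
    (μ := ((0 : ℚ) : ℝ)) (ν := 0) (fun t => by simp)
    (fun t h1 h2 => ⟨le_rfl, by linarith⟩) (pl := fun _ => 0)
    (fun t _ _ => by simp) ⟨0, 0, fun t => by simp⟩ (hhb_fixed le_rfl hdl (by linarith)) hs hd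
  simp only [zero_mul, Rat.cast_zero, add_zero, zero_add, zero_sub, ent_neg] at hV
  have hd0 : 0 ≤ d := le_trans (by exact_mod_cast hdl) hd.1
  have hd1 : d < 1 := by linarith
  obtain ⟨hl0, hline⟩ := line_le hl
  refine scalarCase_of_cert hp hdl (by simpa using hm) hd.1 hmd ⟨hsl.trans hs.1, hs.2.trans_lt hsh⟩
    hH hx (hline d _ hd0 hH) le_rfl ?_
  -- monotonicity in the mean
  have hcR : (p.c : ℝ) ∈ Icc (0 : ℝ) 1 := ⟨by exact_mod_cast hc0, by exact_mod_cast hc1⟩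
  have hCR : (0 : ℝ) ≤ C := by exact_mod_cast hC
  have hdl' : (0 : ℝ) ≤ dl := by exact_mod_cast hdl
  have hdl1 : (dl : ℝ) < 1 := hd.1.trans_lt hd1
  have hd2 : (dl : ℝ) ^ 2 ≤ d ^ 2 := pow_le_pow_left₀ hdl' hd.1 2
  have hquad : ∀ u : ℝ, 1 / (1 - d ^ 2) ≤ u → 0 ≤ 2 * (p.c : ℝ) * d ^ 2 * u ^ 2 - (C : ℝ) * u
      + ((1 - (p.c : ℝ)) * (lineL p.z : ℝ) + C) := by
    intro u hu
    have hu0 : 1 / (1 - (dl : ℝ) ^ 2) ≤ u :=
      le_trans (one_div_le_one_div_of_le (one_sub_sq_pos (by linarith) hd1) (by linarith)) hu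
    obtain ⟨q1, q2⟩ := hq
    have q1' : (C : ℝ) ≤ 2 * (2 * (p.c : ℝ) * (dl : ℝ) ^ 2) * (1 / (1 - (dl : ℝ) ^ 2)) ∨
        (C : ℝ) ^ 2 ≤ 4 * (2 * (p.c : ℝ) * (dl : ℝ) ^ 2)
          * ((1 - (p.c : ℝ)) * (lineL p.z : ℝ) + C) := by
      rcases q1 with q | q
      · exact Or.inl (by exact_mod_cast q)
      · exact Or.inr (by exact_mod_cast q)
    have q2' : (0 : ℝ) ≤ 2 * (p.c : ℝ) * (dl : ℝ) ^ 2 * (1 / (1 - (dl : ℝ) ^ 2)) ^ 2
        - (C : ℝ) * (1 / (1 - (dl : ℝ) ^ 2)) + ((1 - (p.c : ℝ)) * (lineL p.z : ℝ) + C) := by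
      exact_mod_cast q2
    have := quad_nonneg (mul_nonneg (mul_nonneg zero_le_two hcR.1) (sq_nonneg (dl : ℝ))) q1' q2' hu0
    have h2 : 2 * (p.c : ℝ) * (dl : ℝ) ^ 2 * u ^ 2 ≤ 2 * (p.c : ℝ) * d ^ 2 * u ^ 2 :=
      mul_le_mul_of_nonneg_right (mul_le_mul_of_nonneg_left hd2 (mul_nonneg zero_le_two hcR.1))
        (sq_nonneg u)
    linarith
  have hmono := mono_one hm hd0 hmd hcR hl0 hCR hquad
  have hker : planeAt 0 (((dl + dh) / 2 : ℚ) : ℝ) 0 d ≤ kerMD 0 d :=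
    planeAt_le le_rfl (by exact_mod_cast hdp)
      (by rw [zero_add]; exact_mod_cast (show (dl + dh) / 2 < 1 by linarith)) le_rfl hd0
      (by linarith)
  have h3 := mul_le_mul_of_nonneg_left hker hcR.1
  have hC' : coefC p.c p.t p.g 0 dl = C := rfl
  rw [hC']
  simp only [certVal, gapPhi, ent, zero_add, zero_sub, phi_neg, phi_zero] at hV hmono ⊢
  linarith

theorem ok1_sound (h : ok1 p ma sl sh dl dh = true) (hb : okBox sl sh dl dh = true) {s d m : ℝ}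
    (hs : s ∈ Icc (sl : ℝ) sh) (hd : d ∈ Icc (dl : ℝ) dh) (hm : (ma : ℝ) ≤ m)
    (hm' : m ≤ (p.mb : ℝ)) (hmd : m + d < 1)
    (hH : 0 < ent s - phi m) (hx : gapPhi m d ≤ phi s) :
    ScalarCase gOne m d (ent s - phi m) := by
  obtain ⟨hsl, hsh, hdl, hdd, hdh, hdp⟩ := box_facts hb
  simp only [ok1, Bool.and_eq_true, decide_eq_true_eq] at h
  obtain ⟨⟨⟨⟨hp, hl⟩, hmb0, hmb, hmad, hmp, hmdp⟩, hA⟩, hB⟩ := h
  set C := coefC p.c p.t p.g ma dl with hCdef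
  set dp := (dl + dh) / 2 with hdpdef
  have hC : 0 ≤ C := coefC_nonneg hp
  have hpar := hp
  simp only [okPar, Bool.and_eq_true, decide_eq_true_eq] at hpar
  obtain ⟨⟨hc0, hc1, -, -, hma0, -⟩, -⟩ := hpar
  have hmp1 : p.mp < 1 := by linarith
  set T : ℝ → ℝ := fun x =>
    phi (p.mp : ℝ) + artanh (p.mp : ℝ) / (2 * p.mp) * (x ^ 2 - (p.mp : ℝ) ^ 2) with hT
  have hTle : ∀ t : ℚ, (plSq p.mp t : ℝ) ≤ T t := fun t => by
    have a := phiLo_le (s := p.mp) (by linarith) hmp1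
    have b1 := atLo_le (s := p.mp) (by linarith) hmp1
    have b2 := le_atHi (s := p.mp) (by linarith) hmp1
    have hp2 : (0 : ℝ) < 2 * (p.mp : ℝ) := by exact_mod_cast (by linarith : (0 : ℚ) < 2 * p.mp)
    simp only [hT, plSq]
    split_ifs with hc
    · have hc' : (0 : ℝ) ≤ (t : ℝ) ^ 2 - (p.mp : ℝ) ^ 2 := sub_nonneg.2 (by exact_mod_cast hc)
      push_cast
      exact add_le_add a (mul_le_mul_of_nonneg_right (div_le_div_of_nonneg_right b1 hp2.le) hc')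
    · have hc' : (t : ℝ) ^ 2 - (p.mp : ℝ) ^ 2 ≤ 0 :=
        sub_nonpos.2 (by exact_mod_cast (not_le.1 hc).le)
      push_cast
      exact add_le_add a (mul_le_mul_of_nonpos_right (div_le_div_of_nonneg_right b2 hp2.le) hc')
  have fixed : ∀ μ : ℚ, 0 ≤ μ → μ + dh ≤ 1 →
      cornersOne p p.c C p.mp dp (plSq p.mp) (fun _ => μ) sl sh dl dh = true →
      0 ≤ certVal p p.c C (ent s) d (T μ) (planeAt (p.mp : ℝ) dp μ d)
        ((ent ((μ : ℝ) + d) + ent ((μ : ℝ) - d)) / 2) := by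
    intro μ h0 h1 h2
    have hV := cornersOne_sound h2 hb hc0 hc1 hC (Or.inl hl) hmp.le hdp hmdp
      (μ := (μ : ℝ)) (ν := 0) (fun t => by simp)
      (fun t h3 h4 => ⟨h0, by linarith⟩) (pl := T) (fun t _ _ => hTle μ)
      ⟨T μ, 0, fun t => by simp⟩ (hhb_fixed h0 hdl h1) hs hd
    simpa using hV
  have hd0 : 0 ≤ d := le_trans (by exact_mod_cast hdl) hd.1
  have hma' : (0 : ℝ) ≤ ma := by exact_mod_cast hma0
  have hm0 : 0 ≤ m := hma'.trans hm
  have hmbd : (p.mb : ℝ) + d < 1 := by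
    have : (p.mb : ℝ) + dh < 1 := by exact_mod_cast hmb
    linarith [hd.2]
  -- concavity in `m ^ 2`
  have hconc : ConcaveOn ℝ (Icc ((ma : ℝ) ^ 2) ((p.mb : ℝ) ^ 2)) fun M =>
      certVal p p.c C (ent s) d (T (sqrt M)) (planeAt (p.mp : ℝ) dp (sqrt M) d)
        ((ent (sqrt M + d) + ent (sqrt M - d)) / 2) := by
    have hsub : Icc ((ma : ℝ) ^ 2) ((p.mb : ℝ) ^ 2) ⊆ Icc 0 ((1 - d) ^ 2) := fun M hM =>
      ⟨(sq_nonneg _).trans hM.1, hM.2.trans (pow_le_pow_left₀ (by exact_mod_cast hmb0)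
        (by linarith) 2)⟩
    have h1 := ((convexOn_phibar_sq hd0 (by linarith)).subset hsub (convex_Icc _ _)).neg.smul
      (show (0 : ℝ) ≤ C by exact_mod_cast hC)
    have h2 := (strictConcaveOn_sqrt.concaveOn.subset (fun M hM => mem_Ici.2 (hsub hM).1)
      (convex_Icc _ _)).smul (mul_nonneg (show (0 : ℝ) ≤ p.c by exact_mod_cast hc0)
        (planeM_nonneg (show (0 : ℝ) ≤ (p.mp : ℝ) by exact_mod_cast hmp.le)
          (show (0 : ℝ) ≤ (dp : ℝ) by exact_mod_cast hdp) (by exact_mod_cast hmdp)))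
    refine (((concaveOn_affine ((1 - (p.c : ℝ)) * (lineU p.z : ℝ) * d
      - ((1 - (p.c : ℝ)) * (lineL p.z : ℝ) + C) * (ent s - phi (p.mp : ℝ)
        + artanh (p.mp : ℝ) / (2 * p.mp) * (p.mp : ℝ) ^ 2)
      + (p.c : ℝ) * (kerMD (p.mp : ℝ) dp - planeM (p.mp : ℝ) dp * p.mp
        + planeD (p.mp : ℝ) dp * (d - dp))
      + (C : ℝ) * log 2 - (curveB p.t : ℝ) - curve (ent s))
      (((1 - (p.c : ℝ)) * (lineL p.z : ℝ) + C) * (artanh (p.mp : ℝ) / (2 * p.mp)))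
      (convex_Icc _ _)).add h1).add h2).congr fun M hM => ?_
    have hsq := sq_sqrt (hsub hM).1
    simp only [Pi.add_apply, Pi.neg_apply, smul_eq_mul, certVal, planeAt, hT, ent, hsq]
    ring
  have hfin := nonneg_of_concaveOn hconc (x := m ^ 2)
    ⟨pow_le_pow_left₀ hma' hm 2, pow_le_pow_left₀ hm0 hm' 2⟩
    (by rw [sqrt_sq hma']; exact fixed ma hma0 hmad.le hA)
    (by rw [sqrt_sq (by exact_mod_cast hmb0)]; exact fixed p.mb hmb0 hmb.le hB)
  rw [sqrt_sq hm0] at hfin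
  refine scalarCase_of_line hp hl hdl hm hd.1 hmd ⟨hsl.trans hs.1, hs.2.trans_lt hsh⟩ hH hx ?_
    (planeAt_le (by exact_mod_cast hmp.le) (by exact_mod_cast hdp) (by exact_mod_cast hmdp)
      hm0 hd0 hmd) hfin
  have := phi_sqrt_tangent (M := m ^ 2) (show (0 : ℝ) < p.mp by exact_mod_cast hmp)
    (by exact_mod_cast hmp1) ⟨sq_nonneg m, by nlinarith⟩
  rwa [sqrt_sq hm0] at this

theorem ok2_sound (h : ok2 p ma sl sh dl dh = true) (hb : okBox sl sh dl dh = true) {s d m : ℝ}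
    (hs : s ∈ Icc (sl : ℝ) sh) (hd : d ∈ Icc (dl : ℝ) dh) (hm : (ma : ℝ) ≤ m) (hmd : m + d < 1)
    (hH : 0 < ent s - phi m) (hx : gapPhi m d ≤ phi s) :
    ScalarCase gOne m d (ent s - phi m) := by
  obtain ⟨hsl, hsh, hdl, hdd, hdh, hdp⟩ := box_facts hb
  simp only [ok2, Bool.and_eq_true, decide_eq_true_eq] at h
  obtain ⟨⟨⟨⟨hp, hl⟩, hmad, hmp, hmdp⟩, hA⟩, hB⟩ := h
  set C := coefC p.c p.t p.g ma dl with hCdef
  set dp := (dl + dh) / 2 with hdpdef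
  have hC : 0 ≤ C := coefC_nonneg hp
  have hpar := hp
  simp only [okPar, Bool.and_eq_true, decide_eq_true_eq] at hpar
  obtain ⟨⟨hc0, hc1, -, -, hma0, -⟩, -⟩ := hpar
  have hmp1 : p.mp < 1 := by linarith
  set T : ℝ → ℝ := fun x => phi (p.mp : ℝ) + artanh (p.mp : ℝ) * (x - p.mp) with hT
  have hTle : ∀ t : ℚ, (plLin p.mp t : ℝ) ≤ T t := fun t => by
    have a := phiLo_le (s := p.mp) (by linarith) hmp1
    have b1 := atLo_le (s := p.mp) (by linarith) hmp1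
    have b2 := le_atHi (s := p.mp) (by linarith) hmp1
    simp only [hT, plLin]
    split_ifs with hc
    · have hc' : (0 : ℝ) ≤ (t : ℝ) - p.mp := sub_nonneg.2 (by exact_mod_cast hc)
      push_cast
      exact add_le_add a (mul_le_mul_of_nonneg_right b1 hc')
    · have hc' : (t : ℝ) - p.mp ≤ 0 := sub_nonpos.2 (by exact_mod_cast (not_le.1 hc).le)
      push_cast
      exact add_le_add a (mul_le_mul_of_nonpos_right b2 hc')
  have hd0 : 0 ≤ d := le_trans (by exact_mod_cast hdl) hd.1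
  have hma' : (0 : ℝ) ≤ ma := by exact_mod_cast hma0
  have hm0 : 0 ≤ m := hma'.trans hm
  have hVa := cornersOne_sound hA hb hc0 hc1 hC (Or.inl hl) hmp hdp hmdp
    (μ := (ma : ℝ)) (ν := 0) (fun t => by simp)
    (fun t _ h4 => ⟨hma0, by linarith⟩) (pl := T) (fun t _ _ => hTle ma)
    ⟨T ma, 0, fun t => by simp⟩ (hhb_fixed hma0 hdl hmad.le) hs hd
  simp only [zero_mul, add_zero] at hVa
  have hVb := cornersOne_sound hB hb hc0 hc1 hC (Or.inl hl) hmp hdp hmdp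
    (μ := 1) (ν := -1) (fun t => by push_cast; ring)
    (fun t h3 h4 => ⟨by linarith, by linarith⟩) (pl := T) (fun t _ _ => hTle (1 - t))
    ⟨T 1, -artanh (p.mp : ℝ), fun t => by simp only [hT]; ring⟩ (by
      have hdl' : (0 : ℝ) ≤ dl := by exact_mod_cast hdl
      have hdh' : (dh : ℝ) ≤ 1 := by exact_mod_cast hdh.le
      have := (concaveOn_ent_affine (p := 1) (q := -2) (a := (dl : ℝ)) (b := dh) fun t ht =>
        ⟨by linarith [ht.2], by linarith [ht.1]⟩).smul (show (0 : ℝ) ≤ 1 / 2 by norm_num)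
      refine this.congr fun t _ => ?_
      simp only [smul_eq_mul]
      rw [show (1 : ℝ) + -1 * t + t = 1 by ring, show (1 : ℝ) + -1 * t - t = 1 + -2 * t by ring,
        ent_one]
      ring) hs hd
  have hconc : ConcaveOn ℝ (Icc (ma : ℝ) (1 - d)) fun x =>
      certVal p p.c C (ent s) d (T x) (planeAt (p.mp : ℝ) dp x d)
        ((ent (x + d) + ent (x - d)) / 2) := by
    refine ((concaveOn_affine ((1 - (p.c : ℝ)) * (lineU p.z : ℝ) * d
      - ((1 - (p.c : ℝ)) * (lineL p.z : ℝ) + C)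
        * (ent s - phi (p.mp : ℝ) + artanh (p.mp : ℝ) * p.mp)
      + (p.c : ℝ) * (kerMD (p.mp : ℝ) dp - planeM (p.mp : ℝ) dp * p.mp
        + planeD (p.mp : ℝ) dp * (d - dp))
      - (curveB p.t : ℝ) - curve (ent s))
      (((1 - (p.c : ℝ)) * (lineL p.z : ℝ) + C) * artanh (p.mp : ℝ)
        + (p.c : ℝ) * planeM (p.mp : ℝ) dp)
      (convex_Icc _ _)).add ((concaveOn_hbar_m hma' hd0
        (by linarith : 1 - d + d ≤ 1)).smul (show (0 : ℝ) ≤ C by exact_mod_cast hC))).congr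
      fun x _ => ?_
    simp only [Pi.add_apply, smul_eq_mul, certVal, planeAt, hT]
    ring
  have hfin := nonneg_of_concaveOn hconc (x := m) ⟨hm, by linarith⟩ hVa (by
    have e : (1 : ℝ) + -1 * d = 1 - d := by ring
    rwa [e] at hVb)
  refine scalarCase_of_line hp hl hdl hm hd.1 hmd ⟨hsl.trans hs.1, hs.2.trans_lt hsh⟩ hH hx ?_
    (planeAt_le (by exact_mod_cast hmp) (by exact_mod_cast hdp) (by exact_mod_cast hmdp)
      hm0 hd0 hmd) hfin
  -- the tangent lies below `phi`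
  have hm1 : m < 1 := by linarith
  have hmpR : (p.mp : ℝ) < 1 := by exact_mod_cast hmp1
  have hmpR0 : (0 : ℝ) ≤ p.mp := by exact_mod_cast hmp
  rcases le_total (p.mp : ℝ) m with hle | hle
  · have := le_of_hasDerivAt_le (f := T) (g := phi) (f' := fun _ => artanh (p.mp : ℝ))
      (g' := artanh) hle
      (fun x _ => (((hasDerivAt_id x).sub_const _).const_mul _).const_add _ |>.congr_deriv
        (by simp))
      (fun x hx' => hasDerivAt_phi (by linarith [hx'.1]) (by linarith [hx'.2]))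
      (by simp [hT]) (fun x hx' => artanh_le_artanh (by linarith) (by linarith [hx'.2]) hx'.1.le)
    exact this
  · have := le_of_hasDerivAt_le (f := fun x => phi x - T x) (g := fun _ => phi m - T m)
      (f' := fun x => artanh x - artanh (p.mp : ℝ)) (g' := fun _ => 0) hle
      (fun x hx' => (hasDerivAt_phi (by linarith [hx'.1]) (by linarith [hx'.2])).sub
        ((((hasDerivAt_id x).sub_const _).const_mul _).const_add _ |>.congr_deriv (by simp)))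
      (fun x _ => hasDerivAt_const x _) (le_refl _)
      (fun x hx' => sub_nonpos.2 (artanh_le_artanh (by linarith [hx'.1]) hmpR hx'.2.le))
    simp [hT] at this ⊢
    linarith

theorem ok3_sound (h : ok3 p ma sl sh dl dh = true) (hb : okBox sl sh dl dh = true) {s d m : ℝ}
    (hs : s ∈ Icc (sl : ℝ) sh) (hd : d ∈ Icc (dl : ℝ) dh) (hm : (ma : ℝ) ≤ m) (hmd : m + d < 1)
    (hH : 0 < ent s - phi m) (hx : gapPhi m d ≤ phi s) :
    ScalarCase gOne m d (ent s - phi m) := by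
  obtain ⟨hsl, hsh, hdl, hdd, hdh, hdp⟩ := box_facts hb
  simp only [ok3, Bool.and_eq_true, decide_eq_true_eq] at h
  obtain ⟨⟨hp, hmad, hcm⟩, hA⟩ := h
  set C := coefC 1 p.t p.g ma dl with hCdef
  have hC : 0 ≤ C := coefC_nonneg hp
  have hpar := hp
  simp only [okPar, Bool.and_eq_true, decide_eq_true_eq] at hpar
  obtain ⟨⟨-, -, -, -, hma0, hma1⟩, -⟩ := hpar
  have hV := cornersOne_sound hA hb zero_le_one le_rfl hC (Or.inr rfl) hma0 hdp (by linarith)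
    (μ := (ma : ℝ)) (ν := 0) (fun t => by simp)
    (fun t _ h4 => ⟨hma0, by linarith⟩) (pl := fun x => phi x)
    (fun t _ _ => phiLo_le (by linarith) hma1) ⟨phi ma, 0, fun t => by simp⟩
    (hhb_fixed hma0 hdl hmad.le) hs hd
  simp only [zero_mul, add_zero] at hV
  have hd0 : 0 ≤ d := le_trans (by exact_mod_cast hdl) hd.1
  have hma' : (0 : ℝ) ≤ ma := by exact_mod_cast hma0
  refine scalarCase_of_cert (P := pairBound d (ent s - phi m)) hp hdl hm hd.1 hmd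
    ⟨hsl.trans hs.1, hs.2.trans_lt hsh⟩ hH hx le_rfl le_rfl ?_
  have hcm' : (C : ℝ) * (((1 - (ma : ℝ) ^ 2) ^ 2 - 2 * (dl : ℝ) ^ 2 * (1 + (ma : ℝ) ^ 2)
      + (dl : ℝ) ^ 4) + (1 - (ma : ℝ) ^ 2) ^ 2) ≤ 4 * (1 - (ma : ℝ) ^ 2) ^ 2 := by
    exact_mod_cast hcm
  have hD : (dl : ℝ) ^ 2 ≤ d ^ 2 := pow_le_pow_left₀ (by exact_mod_cast hdl) hd.1 2
  have hmono := kerMD_sub_gap_mono (c := (C : ℝ)) hma' hm hd0 hmd (by
    have hd1 : d ^ 2 ≤ 1 := by nlinarith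
    have e : (1 - (ma : ℝ) ^ 2) ^ 2 - 2 * d ^ 2 * (1 + (ma : ℝ) ^ 2) + d ^ 4
        ≤ (1 - (ma : ℝ) ^ 2) ^ 2 - 2 * (dl : ℝ) ^ 2 * (1 + (ma : ℝ) ^ 2) + (dl : ℝ) ^ 4 := by
      nlinarith [mul_nonneg (sub_nonneg.2 hD)
        (show (0 : ℝ) ≤ 2 * (1 + (ma : ℝ) ^ 2) - (d ^ 2 + (dl : ℝ) ^ 2) by nlinarith)]
    have := mul_le_mul_of_nonneg_left e (show (0 : ℝ) ≤ C by exact_mod_cast hC)
    linarith)
  have hker : planeAt (ma : ℝ) (((dl + dh) / 2 : ℚ) : ℝ) ma d ≤ kerMD ma d :=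
    planeAt_le hma' (by exact_mod_cast hdp)
      (by exact_mod_cast (show ma + (dl + dh) / 2 < 1 by linarith)) hma' hd0 (by linarith)
  have hC' : coefC 1 p.t p.g ma dl = C := rfl
  rw [hC']
  simp only [certVal, gapPhi, ent, Rat.cast_one] at hV hmono ⊢
  linarith

lemma chainOne_sound : ∀ (ps : List P1) (ma sl sh dl dh : ℚ),
    chainOne ps ma sl sh dl dh = true → okBox sl sh dl dh = true → ∀ s d m : ℝ,
    s ∈ Icc (sl : ℝ) sh → d ∈ Icc (dl : ℝ) dh → (ma : ℝ) ≤ m → m + d < 1 →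
    0 < ent s - phi m → gapPhi m d ≤ phi s → 0 ≤ m → ScalarCase gOne m d (ent s - phi m)
  | [], ma, sl, sh, dl, dh, h, hb, s, d, m, hs, hd, hm, hmd, hH, hx, hm0 => by
    simp only [chainOne, decide_eq_true_eq] at h
    obtain ⟨h0, h1, h2⟩ := h
    obtain ⟨hsl, hsh, hdl, hdd, hdh, hdp⟩ := box_facts hb
    have h2' : (entHi sl : ℝ) ≤ (phiLo ma : ℝ) := by exact_mod_cast h2
    have hm1 : m < 1 := by
      have : (0 : ℝ) ≤ d := le_trans (by exact_mod_cast hdl) hd.1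
      linarith
    have hsl1 : (sl : ℝ) < 1 := hs.1.trans_lt (hs.2.trans_lt hsh)
    have a := le_entHi (s := sl) (by exact_mod_cast (show (-1 : ℝ) < sl by linarith))
      (by exact_mod_cast hsl1)
    have b := phiLo_le (s := ma) (by linarith) h1
    have c : phi (ma : ℝ) ≤ phi m := by
      have h0' : (0 : ℝ) ≤ ma := by exact_mod_cast h0
      have := ent_strictAntiOn.antitoneOn ⟨h0', by exact_mod_cast h1.le⟩ ⟨hm0, hm1.le⟩ hm
      unfold ent at this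
      linarith
    have e := ent_strictAntiOn.antitoneOn ⟨hsl, hsl1.le⟩
      ⟨hsl.trans hs.1, (hs.2.trans_lt hsh).le⟩ hs.1
    linarith
  | p :: ps, ma, sl, sh, dl, dh, h, hb, s, d, m, hs, hd, hm, hmd, hH, hx, hm0 => by
    simp only [chainOne] at h
    split at h
    · simp only [Bool.and_eq_true, decide_eq_true_eq] at h
      exact ok0_sound h.2 hb hs hd hm0 hmd hH hx
    · simp only [Bool.and_eq_true] at h
      rcases le_total m (p.mb : ℝ) with h' | h'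
      · exact ok1_sound h.1 hb hs hd hm h' hmd hH hx
      · exact chainOne_sound ps p.mb sl sh dl dh h.2 hb s d m hs hd h' hmd hH hx hm0
    · simp only [Bool.and_eq_true] at h
      exact ok2_sound h.2 hb hs hd hm hmd hH hx
    · simp only [Bool.and_eq_true] at h
      exact ok3_sound h.2 hb hs hd hm hmd hH hx

theorem chkOne_sound (ps : List P1) (sl sh dl dh : ℚ) (h : chkOne ps sl sh dl dh = true)
    (s d : ℝ) (h1 : (sl : ℝ) ≤ s) (h2 : s ≤ sh) (h3 : (dl : ℝ) ≤ d) (h4 : d ≤ dh) :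
    GoalOne s d := fun m hm _ hmd hH hx => by
  simp only [chkOne, Bool.and_eq_true] at h
  exact chainOne_sound ps 0 sl sh dl dh h.2 h.1 s d m ⟨h1, h2⟩ ⟨h3, h4⟩ (by simpa using hm) hmd
    hH hx hm

/-- A checked tree proves the first hypothesis on its rectangle, off the corner table. -/
theorem okTreeOne_sound (tbl : List Row) (t : Tree P1) (sl sh dl dh : ℚ)
    (h : okTree chkOne tbl t sl sh dl dh = true) (s d : ℝ) (h1 : (sl : ℝ) ≤ s) (h2 : s ≤ sh)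
    (h3 : (dl : ℝ) ≤ d) (h4 : d ≤ dh)
    (h5 : ∀ w ∈ tbl, (w.s0 : ℝ) ≤ s → s ≤ w.s1 → d < w.dc) : GoalOne s d :=
  okTree_sound chkOne_sound tbl t sl sh dl dh h s d h1 h2 h3 h4 h5

end Vale.Agent.P322.Box
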