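import Vale.Agent.P322.Scalar.Num
import Vale.Agent.P322.Scalar.Lines
import Vale.Agent.P322.Scalar.Mono
import Vale.Agent.P322.Scalar.Box.Common

/-!
Box certificates for the second hypothesis: a checker on rationals and its soundness.

A leaf certifies `ScalarCase gTwo m d (ent s)` on `sl ≤ s ≤ sh`, `dl ≤ d ≤ dh` and all admissible
`m`, by a chain of pieces in `m`. On each piece `combine` turns the inequality into nonnegativity
of a function that is concave in each of `ent s`, `d` and `m ^ 2`, so only corners are evaluated.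
-/

namespace Vale.Agent.P322.BoxTwo

open Real Set Vale.Agent.P322.Num

/-- A piece of a leaf. `kind 0`: all `m` at once, monotone from `m = 0`; `kind 1`: `m` up to `mb`;
`kind 2`: `m` up to the edge `m + d = 1`. The numbers `rs` bound the curve at the corners. -/
structure Piece where
  kind : ℕ
  mb : ℚ
  mp : ℚ
  z : ℚ
  t : ℚ
  c : ℚ
  g : ℚ
  f : ℚ
  t1 : ℚ
  rs : List ℚ

variable (p : Piece) (dl dh ma : ℚ)

/-- slope of the pair line in `d` -/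
def uQ : ℚ := atLo p.z + lamLo p.z * entLo p.z / p.z

/-- slope of the pair line in `H` -/
def lQ : ℚ := lamHi p.z

/-- slope of the first curve line -/
def k1Q : ℚ := if p.t1 = 0 then 2 else kapLo p.t1

/-- offset of the first curve line -/
def b1Q : ℚ := if p.t1 = 0 then 0 else max 0 (kapHi p.t1 * phiHi p.t1 - p.t1 * atLo p.t1)

/-- a lower bound for `t * artanh t + kap t * ent t` -/
def thetaLo (t : ℚ) : ℚ := if t = 0 then 2 * ln2Lo else t * atLo t + kapLo t * entLo t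

/-- slope of the second curve line in `H` -/
def k2Q : ℚ := if p.t = 0 then 2 else kapHi p.t

/-- coefficient of the entropy excess -/
def CQ : ℚ := (p.c * min (1 / 2) (dl ^ 2 / (1 - ma ^ 2)) + p.f * k1Q p) * p.g

/-- minus the coefficient of `H`, apart from the curve -/
def aHQ : ℚ := (1 - p.c) * lQ p + CQ p dl ma + (1 - p.f) * k2Q p

/-- coefficient of `1 - m ^ 2 - d ^ 2` -/
def TQ : ℚ := (1 - p.f) * thetaLo p.t

/-- centre of the `d` interval -/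
def dpQ : ℚ := (dl + dh) / 2

/-- the `m`-slope of the plane below `kerMD` -/
def KmQ : ℚ :=
  2 * p.mp * dpQ dl dh ^ 2 / ((1 - (p.mp + dpQ dl dh) ^ 2) * (1 - (p.mp - dpQ dl dh) ^ 2))

/-- lower bound for the `d`-slope of the plane -/
def KdLoQ : ℚ :=
  (atLo (p.mp + dpQ dl dh) - atHi (p.mp - dpQ dl dh)) / 2 + dpQ dl dh / 2 *
    (1 / (1 - (p.mp + dpQ dl dh) ^ 2) + 1 / (1 - (p.mp - dpQ dl dh) ^ 2))

/-- upper bound for the `d`-slope of the plane -/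
def KdHiQ : ℚ :=
  (atHi (p.mp + dpQ dl dh) - atLo (p.mp - dpQ dl dh)) / 2 + dpQ dl dh / 2 *
    (1 / (1 - (p.mp + dpQ dl dh) ^ 2) + 1 / (1 - (p.mp - dpQ dl dh) ^ 2))

/-- lower bound for the value of the plane at its centre -/
def K0Q : ℚ := dpQ dl dh * (atLo (p.mp + dpQ dl dh) - atHi (p.mp - dpQ dl dh)) / 2

/-- lower bound for the plane -/
def planeQ (m d : ℚ) : ℚ :=
  K0Q p dl dh + KmQ p dl dh * (m - p.mp)
    + (d - dpQ dl dh) * if d ≤ dpQ dl dh then KdHiQ p dl dh else KdLoQ p dl dh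

/-- the corner value: `hb` bounds the average entropy from below and `R` the curve from above -/
def valQ (m d s hb R : ℚ) : ℚ :=
  (1 - p.c) * uQ p * d - aHQ p dl ma * entHi s + p.c * planeQ p dl dh m d + CQ p dl ma * hb
    - p.f * b1Q p + TQ p * (1 - m ^ 2 - d ^ 2) - R

/-- the side conditions of a piece -/
def okParams : Bool :=
  decide (0 < p.z ∧ p.z < 1 ∧ 0 ≤ lamLo p.z ∧ 0 ≤ entLo p.z ∧ 0 < nfunLo p.z)
  && decide (0 ≤ p.t ∧ p.t < 1 ∧ (p.t = 0 ∨ (0 < atLo p.t ∧ 0 ≤ kapLo p.t ∧ 0 ≤ entLo p.t)))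
  && decide (0 ≤ p.t1 ∧ p.t1 < 1 ∧ (p.t1 = 0 ∨ 0 < atLo p.t1))
  && decide (0 ≤ p.c ∧ p.c ≤ 1 ∧ 0 ≤ p.f ∧ p.f ≤ 1 ∧ p.g ≤ 1)
  && decide (0 ≤ CQ p dl ma ∧ 0 ≤ aHQ p dl ma ∧ 0 ≤ TQ p ∧ 0 ≤ p.c * min (1 / 2)
    (dl ^ 2 / (1 - ma ^ 2)) + p.f * k1Q p)
  && decide (0 ≤ p.mp ∧ p.mp + dpQ dl dh < 1 ∧ 0 < dl ∧ dl ≤ dh ∧ dh < 1 ∧ 0 ≤ ma ∧ ma < 1)

/-- is `r` a valid parameter bounding `g * curve (ent s / g)` by `g * (r * atHi r)` -/
def okR (g s r : ℚ) : Bool :=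
  decide (0 < g ∧ 0 ≤ r ∧ r < 1) &&
    if r = 0 then decide (ln2Hi ≤ entLo s / g) else decide (entHi r ≤ entLo s / g)

/-- a corner inside the domain -/
def okCorner (m d s r : ℚ) : Bool :=
  okR (1 - m ^ 2) s r &&
    decide (0 ≤ valQ p dl dh ma m d s ((entLo (m + d) + entLo (m - d)) / 2)
      ((1 - m ^ 2) * (r * atHi r)))

/-- a corner on the edge `m + d = 1` -/
def okEdge (d s r : ℚ) : Bool :=
  let g := 2 * dpQ dl dh - dpQ dl dh ^ 2 + (2 - 2 * dpQ dl dh) * (d - dpQ dl dh)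
  okR g s r && decide (0 ≤ valQ p dl dh ma (1 - d) d s (entLo (1 - 2 * d) / 2) (g * (r * atHi r)))

/-- a corner at `m = 0` -/
def okZero (d s : ℚ) : Bool :=
  decide (0 ≤ valQ p dl dh ma 0 d s (entLo d) (s * atHi s))

/-- lower bound for `r * artanh r + kap r * ent r`, where `ent r` exceeds `ent sl / (2 dl - dl ^ 2)` -/
def okMono (sl : ℚ) : Bool :=
  let r := p.rs.getD 0 0
  let K := 2 * (thetaLo r - TQ p)
  let a := 2 * p.c * dl ^ 2
  let b := CQ p dl ma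
  let u0 := 1 / (1 - dl ^ 2)
  decide (ma = 0 ∧ p.mp = 0 ∧ 0 ≤ r ∧ r < 1)
  && decide (r = 0 ∨ (0 < atLo r ∧ 0 ≤ kapLo r ∧ 0 ≤ entLo r ∧
      entHi sl / (2 * dl - dl ^ 2) ≤ entLo r))
  && decide ((b ≤ 2 * a * u0 ∨ b ^ 2 ≤ 4 * a * K) ∧ 0 ≤ a * u0 ^ 2 - b * u0 + K)

/-- check of one piece -/
def okPiece (sl sh : ℚ) : Bool :=
  let r := fun i => p.rs.getD i 0
  okParams p dl dh ma &&
  match p.kind with
  | 0 => okMono p dl ma sl && okZero p dl dh ma dl sl && okZero p dl dh ma dh sl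
      && okZero p dl dh ma dl sh && okZero p dl dh ma dh sh
  | 1 => decide (ma < p.mb ∧ p.mb + dh < 1)
      && okCorner p dl dh ma ma dl sl (r 0) && okCorner p dl dh ma ma dh sl (r 1)
      && okCorner p dl dh ma p.mb dl sl (r 2) && okCorner p dl dh ma p.mb dh sl (r 3)
      && okCorner p dl dh ma ma dl sh (r 4) && okCorner p dl dh ma ma dh sh (r 5)
      && okCorner p dl dh ma p.mb dl sh (r 6) && okCorner p dl dh ma p.mb dh sh (r 7)
  | 2 => decide (ma + dh < 1)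
      && okCorner p dl dh ma ma dl sl (r 0) && okCorner p dl dh ma ma dh sl (r 1)
      && okEdge p dl dh ma dl sl (r 2) && okEdge p dl dh ma dh sl (r 3)
      && okCorner p dl dh ma ma dl sh (r 4) && okCorner p dl dh ma ma dh sh (r 5)
      && okEdge p dl dh ma dl sh (r 6) && okEdge p dl dh ma dh sh (r 7)
  | _ => false

/-- check of a chain of pieces, covering all `m ≥ ma` -/
def okChain (sl sh dl dh : ℚ) : List Piece → ℚ → Bool
  | [], ma => decide (0 ≤ ma ∧ ma < 1 ∧ entHi ma ≤ entLo sh)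
  | p :: ps, ma => okPiece p dl dh ma sl sh &&
      if p.kind = 1 then okChain sl sh dl dh ps p.mb else true

/-- check of a leaf -/
def okLeaf (sl sh dl dh : ℚ) (ps : List Piece) : Bool :=
  decide (0 ≤ sl ∧ sl ≤ sh ∧ sh < 1) && okChain sl sh dl dh ps 0

/-! ### The function evaluated at the corners -/

/-- the coefficients of the certificate -/
structure Coef where
  a0 : ℝ
  a1 : ℝ
  a2 : ℝ
  aH : ℝ
  C : ℝ
  T : ℝ

/-- the certificate function -/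
noncomputable def W (q : Coef) (m d H hb g : ℝ) : ℝ :=
  q.a1 * d + q.a2 * m + q.a0 - q.aH * H + q.C * hb + q.T * (1 - m ^ 2 - d ^ 2) - g * curve (H / g)

/-- the average entropy of the pair -/
noncomputable def hbar (m d : ℝ) : ℝ := (ent (m + d) + ent (m - d)) / 2

lemma persp_convex {θ θ' g₁ g₂ H₁ H₂ : ℝ} (h0 : 0 ≤ θ) (h1 : 0 ≤ θ') (hs : θ + θ' = 1)
    (hg₁ : 0 < g₁) (hg₂ : 0 < g₂) (hH₁ : 0 < H₁) (hH₂ : 0 < H₂) :
    (θ * g₁ + θ' * g₂) * curve ((θ * H₁ + θ' * H₂) / (θ * g₁ + θ' * g₂))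
      ≤ θ * (g₁ * curve (H₁ / g₁)) + θ' * (g₂ * curve (H₂ / g₂)) := by
  have hg : 0 < θ * g₁ + θ' * g₂ := by
    rcases h0.lt_or_eq with h | h
    · exact add_pos_of_pos_of_nonneg (mul_pos h hg₁) (mul_nonneg h1 hg₂.le)
    · subst h; rw [zero_add] at hs; subst hs; simpa using hg₂
  set g := θ * g₁ + θ' * g₂ with hgd
  have hw : θ * g₁ / g + θ' * g₂ / g = 1 := by rw [← add_div, ← hgd, div_self hg.ne']
  have h := curve_convexOn.2 (div_pos hH₁ hg₁ : H₁ / g₁ ∈ Ioi (0 : ℝ))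
    (div_pos hH₂ hg₂ : H₂ / g₂ ∈ Ioi (0 : ℝ)) (show 0 ≤ θ * g₁ / g by positivity)
    (show 0 ≤ θ' * g₂ / g by positivity) hw
  simp only [smul_eq_mul] at h
  have e : θ * g₁ / g * (H₁ / g₁) + θ' * g₂ / g * (H₂ / g₂) = (θ * H₁ + θ' * H₂) / g := by
    field_simp
  rw [e] at h
  refine (mul_le_mul_of_nonneg_left h hg.le).trans_eq ?_
  field_simp

lemma persp_mono {g g' H : ℝ} (hg : 0 < g) (hgg : g ≤ g') (hH : 0 < H) :
    g * curve (H / g) ≤ g' * curve (H / g') := by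
  refine mul_le_mul hgg ?_ (curve_nonneg (div_pos hH hg)) (hg.trans_le hgg).le
  exact curve_antitoneOn (div_pos hH (hg.trans_le hgg)) (div_pos hH hg)
    (div_le_div_of_nonneg_left hH.le hg hgg)

lemma exists_combo {a b x : ℝ} (hab : a ≤ b) (h : x ∈ Icc a b) :
    ∃ θ θ' : ℝ, 0 ≤ θ ∧ 0 ≤ θ' ∧ θ + θ' = 1 ∧ x = θ * a + θ' * b := by
  rw [← segment_eq_Icc hab] at h
  obtain ⟨θ, θ', h0, h1, hs, e⟩ := h
  exact ⟨θ, θ', h0, h1, hs, e.symm⟩

lemma ent_eq_negMulLog {u : ℝ} (h₁ : -1 ≤ u) (h₂ : u ≤ 1) :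
    ent u = negMulLog ((1 + u) / 2) + negMulLog ((1 - u) / 2) := by
  rcases h₁.lt_or_eq with h₁ | h₁
  · rcases h₂.lt_or_eq with h₂ | h₂
    · rw [ent_eq_log h₁ h₂, negMulLog, negMulLog]; ring
    · subst h₂; norm_num [ent_one]
  · subst h₁; norm_num [ent_neg, ent_one]

lemma ent_combo {θ θ' x y : ℝ} (h0 : 0 ≤ θ) (h1 : 0 ≤ θ') (hs : θ + θ' = 1)
    (hx : x ∈ Icc (-1 : ℝ) 1) (hy : y ∈ Icc (-1 : ℝ) 1) :
    θ * ent x + θ' * ent y ≤ ent (θ * x + θ' * y) := by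
  have hxy : θ * x + θ' * y ∈ Icc (-1 : ℝ) 1 := (convex_Icc _ _) hx hy h0 h1 hs
  rw [ent_eq_negMulLog hx.1 hx.2, ent_eq_negMulLog hy.1 hy.2, ent_eq_negMulLog hxy.1 hxy.2]
  have a := concaveOn_negMulLog.2 (show (1 + x) / 2 ∈ Ici (0 : ℝ) from mem_Ici.2 (by linarith [hx.1]))
    (show (1 + y) / 2 ∈ Ici (0 : ℝ) from mem_Ici.2 (by linarith [hy.1])) h0 h1 hs
  have b := concaveOn_negMulLog.2 (show (1 - x) / 2 ∈ Ici (0 : ℝ) from mem_Ici.2 (by linarith [hx.2]))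
    (show (1 - y) / 2 ∈ Ici (0 : ℝ) from mem_Ici.2 (by linarith [hy.2])) h0 h1 hs
  simp only [smul_eq_mul] at a b
  rw [show θ * ((1 + x) / 2) + θ' * ((1 + y) / 2) = (1 + (θ * x + θ' * y)) / 2 by
    linear_combination hs / 2] at a
  rw [show θ * ((1 - x) / 2) + θ' * ((1 - y) / 2) = (1 - (θ * x + θ' * y)) / 2 by
    linear_combination hs / 2] at b
  linarith

lemma sq_combo {θ θ' x y : ℝ} (h0 : 0 ≤ θ) (h1 : 0 ≤ θ') (hs : θ + θ' = 1) :
    (θ * x + θ' * y) ^ 2 ≤ θ * x ^ 2 + θ' * y ^ 2 := by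
  have : θ * x ^ 2 + θ' * y ^ 2 - (θ * x + θ' * y) ^ 2 = θ * θ' * (x - y) ^ 2 := by
    rw [show θ' = 1 - θ by linarith]; ring
  nlinarith [mul_nonneg (mul_nonneg h0 h1) (sq_nonneg (x - y))]

lemma pair_mem_Icc {m d : ℝ} (hm : 0 ≤ m) (hd : 0 ≤ d) (h : m + d ≤ 1) :
    m + d ∈ Icc (-1 : ℝ) 1 ∧ m - d ∈ Icc (-1 : ℝ) 1 :=
  ⟨⟨by linarith, h⟩, by linarith, by linarith⟩

/-- `W ≥ 0` from the corners, at fixed `m` -/
lemma W_fixed {q : Coef} {m g dl dh Hl Hh : ℝ} (hC : 0 ≤ q.C) (hT : 0 ≤ q.T) (hm : 0 ≤ m)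
    (hg : 0 < g) (hdl : 0 ≤ dl) (hmd : m + dh ≤ 1) (hHl : 0 < Hl) (hdd : dl ≤ dh) (hHH : Hl ≤ Hh)
    (w00 : 0 ≤ W q m dl Hl (hbar m dl) g) (w10 : 0 ≤ W q m dh Hl (hbar m dh) g)
    (w01 : 0 ≤ W q m dl Hh (hbar m dl) g) (w11 : 0 ≤ W q m dh Hh (hbar m dh) g)
    {d H : ℝ} (hd : d ∈ Icc dl dh) (hH : H ∈ Icc Hl Hh) : 0 ≤ W q m d H (hbar m d) g := by
  obtain ⟨θ, θ', h0, h1, hs, rfl⟩ := exists_combo hdd hd
  obtain ⟨φ, φ', g0, g1, gs, rfl⟩ := exists_combo hHH hH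
  have e : ∀ d', 0 ≤ W q m d' Hl (hbar m d') g → 0 ≤ W q m d' Hh (hbar m d') g →
      0 ≤ W q m d' (φ * Hl + φ' * Hh) (hbar m d') g := by
    intro d' a b
    have hp := persp_convex g0 g1 gs hg hg hHl (hHl.trans_le hHH)
    rw [show φ * g + φ' * g = g by rw [← add_mul, gs, one_mul]] at hp
    have a' := mul_nonneg g0 a
    have b' := mul_nonneg g1 b
    have key : φ * W q m d' Hl (hbar m d') g + φ' * W q m d' Hh (hbar m d') g
        ≤ W q m d' (φ * Hl + φ' * Hh) (hbar m d') g := by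
      unfold W
      obtain rfl : φ' = 1 - φ := by linarith
      linarith
    linarith
  have a := mul_nonneg h0 (e dl w00 w01)
  have b := mul_nonneg h1 (e dh w10 w11)
  obtain ⟨pl, ml⟩ := pair_mem_Icc hm hdl (by linarith)
  obtain ⟨ph, mh⟩ := pair_mem_Icc hm (hdl.trans hdd) hmd
  have hbc : θ * hbar m dl + θ' * hbar m dh ≤ hbar m (θ * dl + θ' * dh) := by
    have e1 := ent_combo h0 h1 hs pl ph
    have e2 := ent_combo h0 h1 hs ml mh
    rw [show θ * (m + dl) + θ' * (m + dh) = m + (θ * dl + θ' * dh) by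
      linear_combination m * hs] at e1
    rw [show θ * (m - dl) + θ' * (m - dh) = m - (θ * dl + θ' * dh) by
      linear_combination m * hs] at e2
    unfold hbar; linarith
  have c1 := mul_le_mul_of_nonneg_left hbc hC
  have c2 := mul_le_mul_of_nonneg_left (sq_combo (x := dl) (y := dh) h0 h1 hs) hT
  unfold W at a b ⊢
  obtain rfl : θ' = 1 - θ := by linarith
  linarith

/-- `W ≥ 0` on the edge `m + d = 1` from its corners -/
lemma W_edge {q : Coef} {dl dh dp Hl Hh : ℝ} (hC : 0 ≤ q.C) (hT : 0 ≤ q.T) (hdl : 0 < dl)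
    (hdd : dl ≤ dh) (hdh : dh < 1) (hHl : 0 < Hl) (hHH : Hl ≤ Hh)
    (wl : ∀ H, H = Hl ∨ H = Hh → ∀ d, d = dl ∨ d = dh →
      0 ≤ W q (1 - d) d H (ent (1 - 2 * d) / 2) (2 * dp - dp ^ 2 + (2 - 2 * dp) * (d - dp)))
    {d H : ℝ} (hd : d ∈ Icc dl dh) (hH : H ∈ Icc Hl Hh) :
    0 ≤ W q (1 - d) d H (hbar (1 - d) d) (1 - (1 - d) ^ 2) := by
  obtain ⟨θ, θ', h0, h1, hs, rfl⟩ := exists_combo hdd hd
  obtain ⟨φ, φ', g0, g1, gs, rfl⟩ := exists_combo hHH hH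
  set G : ℝ → ℝ := fun d => 2 * dp - dp ^ 2 + (2 - 2 * dp) * (d - dp) with hG
  have hpos : ∀ d, dl ≤ d → d ≤ dh → 0 < G d ∧ 1 - (1 - d) ^ 2 ≤ G d ∧ 0 < 1 - (1 - d) ^ 2 := by
    intro d a b
    have : 0 < 1 - (1 - d) ^ 2 := by nlinarith
    have h2 : 1 - (1 - d) ^ 2 ≤ G d := by simp only [hG]; nlinarith [sq_nonneg (d - dp)]
    exact ⟨this.trans_le h2, h2, this⟩
  obtain ⟨gl, -, -⟩ := hpos dl le_rfl hdd
  obtain ⟨gh, -, -⟩ := hpos dh hdd le_rfl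
  obtain ⟨gd, gle, gd0⟩ := hpos _ hd.1 hd.2
  have hHh : 0 < Hh := hHl.trans_le hHH
  set D := θ * dl + θ' * dh with hD
  set X := φ * Hl + φ' * Hh with hX
  have hX0 : 0 < X := hHl.trans_le hH.1
  have hm1 := persp_mono gd0 gle hX0
  have pl := persp_convex g0 g1 gs gl gl hHl hHh
  have ph := persp_convex g0 g1 gs gh gh hHl hHh
  rw [show φ * G dl + φ' * G dl = G dl by rw [← add_mul, gs, one_mul], ← hX] at pl
  rw [show φ * G dh + φ' * G dh = G dh by rw [← add_mul, gs, one_mul], ← hX] at ph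
  have pd := persp_convex h0 h1 hs gl gh hX0 hX0
  rw [show θ * G dl + θ' * G dh = G D by
      simp only [hG, hD]
      obtain rfl : θ' = 1 - θ := by linarith
      ring,
    show θ * X + θ' * X = X by rw [← add_mul, hs, one_mul]] at pd
  have hb : θ * (ent (1 - 2 * dl) / 2) + θ' * (ent (1 - 2 * dh) / 2) ≤ hbar (1 - D) D := by
    have e1 := ent_combo h0 h1 hs (x := 1 - 2 * dl) (y := 1 - 2 * dh)
      ⟨by linarith, by linarith⟩ ⟨by linarith, by linarith⟩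
    rw [show θ * (1 - 2 * dl) + θ' * (1 - 2 * dh) = 1 - D - D by
      rw [hD]; linear_combination hs] at e1
    rw [hbar, show 1 - D + D = 1 by ring, ent_one]
    linarith
  have c1 := mul_le_mul_of_nonneg_left hb hC
  have c2 := mul_le_mul_of_nonneg_left (sq_combo (x := dl) (y := dh) h0 h1 hs) hT
  rw [← hD] at c2
  have c3 := mul_le_mul_of_nonneg_left pl h0
  have c4 := mul_le_mul_of_nonneg_left ph h1
  have a00 := mul_nonneg (mul_nonneg g0 h0) (wl Hl (Or.inl rfl) dl (Or.inl rfl))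
  have a01 := mul_nonneg (mul_nonneg g0 h1) (wl Hl (Or.inl rfl) dh (Or.inr rfl))
  have a10 := mul_nonneg (mul_nonneg g1 h0) (wl Hh (Or.inr rfl) dl (Or.inl rfl))
  have a11 := mul_nonneg (mul_nonneg g1 h1) (wl Hh (Or.inr rfl) dh (Or.inr rfl))
  simp only [W, hG] at a00 a01 a10 a11 c3 c4 pd hm1 ⊢
  obtain rfl : θ' = 1 - θ := by linarith
  obtain rfl : φ' = 1 - φ := by linarith
  linear_combination a00 + a01 + a10 + a11 + c1 + 2 * c2 + c3 + c4 + pd + hm1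

/-- reduction of `m` to the ends of an interval -/
lemma W_mean {q : Coef} {ma mb m d H : ℝ} (hC : 0 ≤ q.C) (ha2 : 0 ≤ q.a2) (hma : 0 ≤ ma)
    (hm : m ∈ Icc ma mb) (hd : 0 < d) (hmb : mb + d ≤ 1) (hH : 0 < H)
    (wa : 0 ≤ W q ma d H (hbar ma d) (1 - ma ^ 2))
    (wb : 0 ≤ W q mb d H (hbar mb d) (1 - mb ^ 2)) :
    0 ≤ W q m d H (hbar m d) (1 - m ^ 2) := by
  have hm0 : 0 ≤ m := hma.trans hm.1
  obtain ⟨θ, θ', h0, h1, hs, e⟩ := exists_combo
    (pow_le_pow_left₀ hma (hm.1.trans hm.2) 2)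
    (⟨pow_le_pow_left₀ hma hm.1 2, pow_le_pow_left₀ hm0 hm.2 2⟩ : m ^ 2 ∈ Icc (ma ^ 2) (mb ^ 2))
  have hroot : θ * ma + θ' * mb ≤ m := by
    have := sq_combo (x := ma) (y := mb) h0 h1 hs
    rw [← e] at this
    exact (pow_le_pow_iff_left₀ (by nlinarith [hma.trans (hm.1.trans hm.2)]) hm0 two_ne_zero).1 this
  have hmem : ∀ x, 0 ≤ x → x ≤ mb → x ^ 2 ∈ Icc (0 : ℝ) ((1 - d) ^ 2) := fun x hx hxb =>
    ⟨sq_nonneg x, pow_le_pow_left₀ hx (by linarith) 2⟩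
  have hd1 : d ≤ 1 := by linarith [hm.2]
  have hphi := (convexOn_phibar_sq hd.le hd1).2 (hmem ma hma (hm.1.trans hm.2))
    (hmem mb (hma.trans (hm.1.trans hm.2)) le_rfl) h0 h1 hs
  simp only [smul_eq_mul, ← e, sqrt_sq hma, sqrt_sq (hma.trans (hm.1.trans hm.2)),
    sqrt_sq hm0] at hphi
  have hb : θ * hbar ma d + θ' * hbar mb d ≤ hbar m d := by
    simp only [hbar, ent]
    obtain rfl : θ' = 1 - θ := by linarith
    linarith
  have ga : 0 < 1 - ma ^ 2 := by nlinarith [hm.1.trans hm.2]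
  have gb : 0 < 1 - mb ^ 2 := by nlinarith [hma.trans (hm.1.trans hm.2)]
  have hp := persp_convex h0 h1 hs ga gb hH hH
  rw [show θ * (1 - ma ^ 2) + θ' * (1 - mb ^ 2) = 1 - m ^ 2 by linear_combination hs + e,
    show θ * H + θ' * H = H by rw [← add_mul, hs, one_mul]] at hp
  have a := mul_nonneg h0 wa
  have b := mul_nonneg h1 wb
  have c1 := mul_le_mul_of_nonneg_left hb hC
  have c2 := mul_le_mul_of_nonneg_left hroot ha2
  have c3 : q.T * m ^ 2 = q.T * (θ * ma ^ 2 + θ' * mb ^ 2) := by rw [e]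
  unfold W at a b ⊢
  obtain rfl : θ' = 1 - θ := by linarith
  linarith

/-! ### Soundness -/

lemma ScalarCase_of_flat {m d H : ℝ} (hm : 0 ≤ m) (hd : 0 ≤ d) (hmd : m + d < 1) (hH : 0 < H)
    (h : log 2 ≤ H / (1 - m ^ 2)) : ScalarCase gTwo m d H := by
  have h1 : 0 ≤ pairBound d H := by
    rcases hd.lt_or_eq with hd' | hd'
    · rw [pairBound_of_pos hd']
      have := ratInv_mem (div_pos hH hd')
      exact mul_nonneg hd (artanh_nonneg this.1.le)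
    · rw [← hd', pairBound_zero]
  have h2 : 0 ≤ avgBound (m + d) (m - d) H := by
    refine le_trans (curve_nonneg ?_) (le_max_left _ _)
    have a := phi_nonneg (show -1 ≤ m + d by linarith) hmd.le
    have b := phi_nonneg (show -1 ≤ m - d by linarith) (show m - d ≤ 1 by linarith)
    linarith
  rw [ScalarCase, gTwo, curve_eq_zero h, mul_zero]
  exact add_nonneg (h1.trans (le_max_right _ _)) h2

/-- the coefficients of a piece -/
noncomputable def coef (p : Piece) (dl dh ma : ℚ) : Coef where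
  a0 := (p.c : ℝ) * (kerMD p.mp (dpQ dl dh) - KmQ p dl dh * p.mp
      - (kerDeriv ((p.mp : ℝ) + dpQ dl dh) ((p.mp : ℝ) - dpQ dl dh)
        - kerDeriv ((p.mp : ℝ) - dpQ dl dh) ((p.mp : ℝ) + dpQ dl dh)) * dpQ dl dh)
    - (p.f : ℝ) * b1Q p
  a1 := (1 - (p.c : ℝ)) * uQ p + (p.c : ℝ) *
      (kerDeriv ((p.mp : ℝ) + dpQ dl dh) ((p.mp : ℝ) - dpQ dl dh)
        - kerDeriv ((p.mp : ℝ) - dpQ dl dh) ((p.mp : ℝ) + dpQ dl dh))
  a2 := (p.c : ℝ) * KmQ p dl dh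
  aH := aHQ p dl ma
  C := CQ p dl ma
  T := TQ p

lemma thetaLo_le {t : ℚ} (h0 : 0 ≤ t) (h1 : t < 1)
    (h : t = 0 ∨ (0 < atLo t ∧ 0 ≤ kapLo t ∧ 0 ≤ entLo t)) :
    (thetaLo t : ℝ) ≤ t * artanh t + kap t * ent t := by
  rcases h0.lt_or_eq with h0 | h0
  · obtain ⟨-, hk, he⟩ := h.resolve_left h0.ne'
    have a := atLo_le (by linarith) h1
    have b := kapLo_le h0 h1
    have c := entLo_le (by linarith) h1
    rw [thetaLo, if_neg h0.ne']
    push_cast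
    have t0 : (0 : ℝ) ≤ (t : ℝ) := by exact_mod_cast h0.le
    have hk' : (0 : ℝ) ≤ (kapLo t : ℝ) := by exact_mod_cast hk
    have he' : (0 : ℝ) ≤ (entLo t : ℝ) := by exact_mod_cast he
    exact add_le_add (mul_le_mul_of_nonneg_left a t0) (mul_le_mul b c he' (hk'.trans b))
  · subst h0
    have := ln2Lo_le
    simp [thetaLo, kap_zero, ent_zero]
    linarith

section sound

variable {p : Piece} {dl dh ma : ℚ}

lemma params_spec (h : okParams p dl dh ma = true) :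
    (0 < p.z ∧ p.z < 1 ∧ 0 ≤ lamLo p.z ∧ 0 ≤ entLo p.z ∧ 0 < nfunLo p.z) ∧
    (0 ≤ p.t ∧ p.t < 1 ∧ (p.t = 0 ∨ (0 < atLo p.t ∧ 0 ≤ kapLo p.t ∧ 0 ≤ entLo p.t))) ∧
    (0 ≤ p.t1 ∧ p.t1 < 1 ∧ (p.t1 = 0 ∨ 0 < atLo p.t1)) ∧
    (0 ≤ p.c ∧ p.c ≤ 1 ∧ 0 ≤ p.f ∧ p.f ≤ 1 ∧ p.g ≤ 1) ∧
    (0 ≤ CQ p dl ma ∧ 0 ≤ aHQ p dl ma ∧ 0 ≤ TQ p ∧
      0 ≤ p.c * min (1 / 2) (dl ^ 2 / (1 - ma ^ 2)) + p.f * k1Q p) ∧
    (0 ≤ p.mp ∧ p.mp + dpQ dl dh < 1 ∧ 0 < dl ∧ dl ≤ dh ∧ dh < 1 ∧ 0 ≤ ma ∧ ma < 1) := by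
  simp only [okParams, Bool.and_eq_true, decide_eq_true_eq] at h
  tauto

/-- the combined lower bound for the right hand side -/
lemma rhs_ge (h : okParams p dl dh ma = true) {m d H K : ℝ} (hmaR : (ma : ℝ) ≤ m)
    (hd : (dl : ℝ) ≤ d) (hmd : m + d < 1) (hH : 0 < H) (hH' : H ≤ hbar m d)
    (hK : K ≤ kerMD m d) :
    (1 - (p.c : ℝ)) * ((uQ p : ℝ) * d - (lQ p : ℝ) * H) + (p.c : ℝ) * K
        + (CQ p dl ma : ℝ) * (hbar m d - H) - (p.f : ℝ) * b1Q p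
        + (1 - (p.f : ℝ)) * ((thetaLo p.t : ℝ) * (1 - m ^ 2 - d ^ 2) - (k2Q p : ℝ) * H)
      ≤ max (meanBound (m + d) (m - d) H) (pairBound d H) + avgBound (m + d) (m - d) H := by
  obtain ⟨⟨z0, z1, zl, ze, zn⟩, ⟨t0, t1', tc⟩, ⟨s0, s1, sc⟩, ⟨c0, c1, f0, f1, g1⟩,
    ⟨-, -, -, hpre⟩, ⟨-, -, dl0, -, -, ma0, ma1⟩⟩ := params_spec h
  have hdl0 : (0 : ℝ) < (dl : ℝ) := by exact_mod_cast dl0
  have hma0 : (0 : ℝ) ≤ (ma : ℝ) := by exact_mod_cast ma0
  have hm : 0 ≤ m := hma0.trans hmaR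
  have hd0 : 0 < d := hdl0.trans_le hd
  have zI : (p.z : ℝ) ∈ Ioo (0 : ℝ) 1 := ⟨by exact_mod_cast z0, by exact_mod_cast z1⟩
  have hu : (uQ p : ℝ) ≤ artanh p.z + lamFun p.z * (ent p.z / p.z) := by
    have a := atLo_le (show -1 < p.z by linarith) z1
    have b := lamLo_le (show -1 < p.z by linarith) z1
    have c := entLo_le (show -1 < p.z by linarith) z1
    have l0 : (0 : ℝ) ≤ (lamLo p.z : ℝ) := by exact_mod_cast zl
    have e0 : (0 : ℝ) ≤ (entLo p.z : ℝ) := by exact_mod_cast ze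
    rw [uQ]
    push_cast
    rw [mul_div_assoc]
    refine add_le_add a (mul_le_mul b (div_le_div_of_nonneg_right c zI.1.le)
      (div_nonneg e0 zI.1.le) (l0.trans b))
  have hP := pairBound_line (d := d) hd0.le hH zI hu (le_lamHi (by linarith) z1 zn)
  have tI : (p.t : ℝ) ∈ Ico (0 : ℝ) 1 := ⟨by exact_mod_cast t0, by exact_mod_cast t1'⟩
  have hgb : 0 < 1 - m ^ 2 - d ^ 2 := by linarith [sq_lt_one_sub_sq hm hd0.le hmd]
  have hk2 : kap (p.t : ℝ) ≤ (k2Q p : ℝ) := by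
    rcases t0.lt_or_eq with t0' | t0'
    · rw [k2Q, if_neg t0'.ne']
      exact le_kapHi t0' t1' (tc.resolve_left t0'.ne').1
    · simp [k2Q, ← t0', kap_zero]
  have hL₂ := curve_line_two hgb hH tI (thetaLo_le t0 t1' tc) hk2
  have sI : (p.t1 : ℝ) ∈ Ico (0 : ℝ) 1 := ⟨by exact_mod_cast s0, by exact_mod_cast s1⟩
  have hk1 : (k1Q p : ℝ) ≤ kap p.t1 ∧
      kap (p.t1 : ℝ) * phi p.t1 - p.t1 * artanh p.t1 ≤ (b1Q p : ℝ) := by
    rcases s0.lt_or_eq with s0' | s0'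
    · have ha := sc.resolve_left s0'.ne'
      simp only [k1Q, b1Q, if_neg s0'.ne']
      refine ⟨kapLo_le s0' s1, ?_⟩
      push_cast
      refine le_trans ?_ (le_max_right _ _)
      have a := atLo_le (show -1 < p.t1 by linarith) s1
      have b := le_phiHi (show -1 < p.t1 by linarith) s1
      have c := le_kapHi s0' s1 ha
      have := mul_le_mul c b (phi_nonneg (by linarith [sI.1]) sI.2.le)
        (le_trans (le_trans zero_le_two (two_le_kap sI.1 sI.2)) c)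
      linarith [mul_le_mul_of_nonneg_left a sI.1]
    · simp [k1Q, b1Q, ← s0', kap_zero, phi]
  have hx : 0 ≤ hbar m d - H := sub_nonneg.2 hH'
  have hx2 : hbar m d - H < log 2 := by
    have a := ent_le_log_two (show -1 ≤ m + d by linarith) hmd.le
    have b := ent_le_log_two (show -1 ≤ m - d by linarith) (show m - d ≤ 1 by linarith)
    unfold hbar; linarith
  have hL₁ : (k1Q p : ℝ) * (hbar m d - H) - (b1Q p : ℝ) ≤ curve (log 2 - (hbar m d - H)) := by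
    refine le_trans ?_ (curve_line_one hx hx2 sI (le_trans zero_le_two (two_le_kap sI.1 sI.2))
      le_rfl hk1.2)
    linarith [mul_le_mul_of_nonneg_right hk1.1 hx]
  have hw : ((min (1 / 2) (dl ^ 2 / (1 - ma ^ 2)) : ℚ) : ℝ)
      ≤ min (1 / 2) (d ^ 2 / (1 - m ^ 2)) := by
    push_cast
    refine min_le_min le_rfl (div_le_div₀ (sq_nonneg d) (pow_le_pow_left₀ hdl0.le hd 2)
      (by nlinarith) ?_)
    nlinarith
  have hC : (CQ p dl ma : ℝ) ≤ (p.c : ℝ) * ((min (1 / 2) (dl ^ 2 / (1 - ma ^ 2)) : ℚ) : ℝ)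
      + (p.f : ℝ) * (k1Q p : ℝ) := by
    have : CQ p dl ma ≤ p.c * min (1 / 2) (dl ^ 2 / (1 - ma ^ 2)) + p.f * k1Q p :=
      mul_le_of_le_one_right hpre g1
    exact_mod_cast this
  exact combine hm hd0.le hmd hH hH' hP hK hw hL₁ hL₂
    ⟨by exact_mod_cast c0, by exact_mod_cast c1⟩ ⟨by exact_mod_cast f0, by exact_mod_cast f1⟩ hC

/-- the plane below `kerMD` -/
lemma plane_spec (h : okParams p dl dh ma = true) :
    (kerDeriv ((p.mp : ℝ) + dpQ dl dh) ((p.mp : ℝ) - dpQ dl dh)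
        + kerDeriv ((p.mp : ℝ) - dpQ dl dh) ((p.mp : ℝ) + dpQ dl dh) = KmQ p dl dh) ∧
    0 ≤ (KmQ p dl dh : ℝ) ∧
    (KdLoQ p dl dh : ℝ) ≤ kerDeriv ((p.mp : ℝ) + dpQ dl dh) ((p.mp : ℝ) - dpQ dl dh)
        - kerDeriv ((p.mp : ℝ) - dpQ dl dh) ((p.mp : ℝ) + dpQ dl dh) ∧
    kerDeriv ((p.mp : ℝ) + dpQ dl dh) ((p.mp : ℝ) - dpQ dl dh)
        - kerDeriv ((p.mp : ℝ) - dpQ dl dh) ((p.mp : ℝ) + dpQ dl dh) ≤ (KdHiQ p dl dh : ℝ) ∧
    (K0Q p dl dh : ℝ) ≤ kerMD p.mp (dpQ dl dh) := by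
  obtain ⟨-, -, -, -, -, ⟨mp0, hp, dl0, hdd, -, -, -⟩⟩ := params_spec h
  have dp0 : 0 < dpQ dl dh := by rw [dpQ]; linarith
  have a1 := atLo_le (show -1 < p.mp + dpQ dl dh by linarith) hp
  have a2 := le_atHi (show -1 < p.mp + dpQ dl dh by linarith) hp
  have b1 := atLo_le (show -1 < p.mp - dpQ dl dh by linarith) (by linarith)
  have b2 := le_atHi (show -1 < p.mp - dpQ dl dh by linarith) (by linarith)
  push_cast at a1 a2 b1 b2
  set x : ℝ := ((p.mp : ℝ)) with hx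
  set y : ℝ := ((dpQ dl dh : ℚ) : ℝ) with hy
  have hx0 : 0 ≤ x := by rw [hx]; exact_mod_cast mp0
  have hy0 : 0 < y := by rw [hy]; exact_mod_cast dp0
  have hxy : x + y < 1 := by rw [hx, hy]; exact_mod_cast hp
  obtain ⟨p1, p2⟩ := one_sub_sq_pos_pair hx0 hy0.le hxy
  have hβ : kerDeriv (x + y) (x - y) - kerDeriv (x - y) (x + y)
      = (artanh (x + y) - artanh (x - y)) / 2
        + y / 2 * (1 / (1 - (x + y) ^ 2) + 1 / (1 - (x - y) ^ 2)) := by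
    unfold kerDeriv; ring
  refine ⟨?_, ?_, ?_, ?_, ?_⟩
  · rw [KmQ]; push_cast; rw [← hx, ← hy]
    unfold kerDeriv
    field_simp
    ring
  · rw [KmQ]; push_cast; rw [← hx, ← hy]
    positivity
  · rw [KdLoQ]; push_cast; rw [← hx, ← hy, hβ]
    linarith
  · rw [KdHiQ]; push_cast; rw [← hx, ← hy, hβ]
    linarith
  · rw [K0Q, kerMD, ker]; push_cast; rw [← hy]
    have := mul_le_mul_of_nonneg_left (sub_le_sub a1 b2) hy0.le
    linarith

/-- the scalar inequality from nonnegativity of the certificate function -/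
lemma case_of_W (h : okParams p dl dh ma = true) {m d H : ℝ} (hmaR : (ma : ℝ) ≤ m)
    (hd : (dl : ℝ) ≤ d) (hmd : m + d < 1) (hH : 0 < H) (hH' : H ≤ hbar m d)
    (hW : 0 ≤ W (coef p dl dh ma) m d H (hbar m d) (1 - m ^ 2)) : ScalarCase gTwo m d H := by
  obtain ⟨hsum, -, -, -, -⟩ := plane_spec h
  obtain ⟨-, -, -, ⟨c0, -⟩, -, ⟨mp0, hp, dl0, hdd, -, ma0, -⟩⟩ := params_spec h
  have hdl0 : (0 : ℝ) < (dl : ℝ) := by exact_mod_cast dl0
  have hma0 : (0 : ℝ) ≤ (ma : ℝ) := by exact_mod_cast ma0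
  have hdp : (0 : ℝ) ≤ ((dpQ dl dh : ℚ) : ℝ) := by
    exact_mod_cast (show 0 ≤ dpQ dl dh by rw [dpQ]; linarith)
  have hpl := kerMD_plane (show (0 : ℝ) ≤ (p.mp : ℝ) by exact_mod_cast mp0) hdp
    (by exact_mod_cast hp) (hma0.trans hmaR) (hdl0.le.trans hd) hmd
  rw [hsum] at hpl
  refine le_trans ?_ (rhs_ge h hmaR hd hmd hH hH' hpl)
  simp only [W, coef] at hW
  rw [gTwo]
  simp only [aHQ, TQ, lQ] at hW
  push_cast at hW
  unfold lQ
  linarith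

/-- a corner of the certificate function -/
lemma W_ge_valQ (h : okParams p dl dh ma = true) {m d s : ℚ} (hs0 : 0 ≤ s) (hs1 : s < 1)
    {hb R : ℚ} {hbR gR : ℝ} (hhb : (hb : ℝ) ≤ hbR) (hR : gR * curve (ent s / gR) ≤ (R : ℝ))
    (hv : 0 ≤ valQ p dl dh ma m d s hb R) :
    0 ≤ W (coef p dl dh ma) m d (ent s) hbR gR := by
  obtain ⟨hsum, -, hlo, hhi, hK0⟩ := plane_spec h
  obtain ⟨-, -, -, ⟨c0, -⟩, ⟨hC, haH, -, -⟩, -⟩ := params_spec h
  have he := le_entHi (show -1 < s by linarith) hs1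
  have hc : (0 : ℝ) ≤ (p.c : ℝ) := by exact_mod_cast c0
  set β := kerDeriv ((p.mp : ℝ) + dpQ dl dh) ((p.mp : ℝ) - dpQ dl dh)
        - kerDeriv ((p.mp : ℝ) - dpQ dl dh) ((p.mp : ℝ) + dpQ dl dh) with hβ
  have hpl : (planeQ p dl dh m d : ℝ) ≤ kerMD p.mp (dpQ dl dh)
      + (KmQ p dl dh : ℝ) * ((m : ℝ) - p.mp) + β * ((d : ℝ) - (dpQ dl dh : ℝ)) := by
    have : ((d - dpQ dl dh) * if d ≤ dpQ dl dh then KdHiQ p dl dh else KdLoQ p dl dh : ℚ)
        ≤ (β * ((d : ℝ) - (dpQ dl dh : ℝ))) := by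
      push_cast
      rw [mul_comm β]
      split_ifs with hle
      · exact mul_le_mul_of_nonpos_left hhi (sub_nonpos.2 (by exact_mod_cast hle))
      · exact mul_le_mul_of_nonneg_left hlo (sub_nonneg.2 (by exact_mod_cast (not_le.1 hle).le))
    rw [planeQ]
    push_cast at this ⊢
    linarith
  have h1 := mul_le_mul_of_nonneg_left he (show (0 : ℝ) ≤ (aHQ p dl ma : ℝ) by exact_mod_cast haH)
  have h2 := mul_le_mul_of_nonneg_left hhb (show (0 : ℝ) ≤ (CQ p dl ma : ℝ) by exact_mod_cast hC)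
  have h3 := mul_le_mul_of_nonneg_left hpl hc
  have hv' : (0 : ℝ) ≤ (valQ p dl dh ma m d s hb R : ℝ) := by exact_mod_cast hv
  rw [valQ] at hv'
  push_cast at hv'
  simp only [W, coef, ← hβ]
  linarith

lemma okR_spec {g s r : ℚ} (hs0 : 0 ≤ s) (hs1 : s < 1) (h : okR g s r = true) :
    (g : ℝ) * curve (ent s / g) ≤ ((g * (r * atHi r) : ℚ) : ℝ) := by
  simp only [okR, Bool.and_eq_true, decide_eq_true_eq] at h
  obtain ⟨⟨hg, r0, r1⟩, h⟩ := h
  have hg' : (0 : ℝ) < (g : ℝ) := by exact_mod_cast hg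
  have he := entLo_le (show -1 < s by linarith) hs1
  push_cast
  refine mul_le_mul_of_nonneg_left ?_ hg'.le
  rcases r0.lt_or_eq with r0' | r0'
  · rw [if_neg r0'.ne', decide_eq_true_eq] at h
    have h' : (entHi r : ℝ) ≤ (entLo s : ℝ) / (g : ℝ) := by exact_mod_cast h
    have rR : (0 : ℝ) ≤ (r : ℝ) := by exact_mod_cast r0
    refine (curve_le_of rR (by exact_mod_cast r1) ?_).trans
      (mul_le_mul_of_nonneg_left (le_atHi (by linarith) r1) rR)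
    exact ((le_entHi (by linarith) r1).trans h').trans (div_le_div_of_nonneg_right he hg'.le)
  · rw [if_pos r0'.symm, decide_eq_true_eq] at h
    have h' : (ln2Hi : ℝ) ≤ (entLo s : ℝ) / (g : ℝ) := by exact_mod_cast h
    rw [curve_eq_zero ((le_ln2Hi.trans h').trans (div_le_div_of_nonneg_right he hg'.le))]
    subst r0'
    simp

lemma corner_spec (h : okParams p dl dh ma = true) {m d s r : ℚ} (hs0 : 0 ≤ s) (hs1 : s < 1)
    (hm : 0 ≤ m) (hd : 0 ≤ d) (hmd : m + d < 1) (hc : okCorner p dl dh ma m d s r = true) :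
    0 ≤ W (coef p dl dh ma) m d (ent s) (hbar m d) (1 - (m : ℝ) ^ 2) := by
  simp only [okCorner, Bool.and_eq_true, decide_eq_true_eq] at hc
  refine W_ge_valQ h hs0 hs1 ?_ ?_ hc.2
  · have a := entLo_le (show -1 < m + d by linarith) hmd
    have b := entLo_le (show -1 < m - d by linarith) (by linarith)
    push_cast at a b ⊢
    unfold hbar; linarith
  · have := okR_spec hs0 hs1 hc.1
    push_cast at this ⊢
    exact this

lemma edge_spec (h : okParams p dl dh ma = true) {d s r : ℚ} (hs0 : 0 ≤ s) (hs1 : s < 1)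
    (hd : 0 < d) (hd1 : d < 1) (hc : okEdge p dl dh ma d s r = true) :
    0 ≤ W (coef p dl dh ma) (1 - (d : ℝ)) d (ent s) (ent (1 - 2 * (d : ℝ)) / 2)
      (2 * (dpQ dl dh : ℝ) - (dpQ dl dh : ℝ) ^ 2
        + (2 - 2 * (dpQ dl dh : ℝ)) * ((d : ℝ) - (dpQ dl dh : ℝ))) := by
  simp only [okEdge, Bool.and_eq_true, decide_eq_true_eq] at hc
  have hv := W_ge_valQ h hs0 hs1 (hbR := ent (1 - 2 * (d : ℝ)) / 2)
    (gR := 2 * (dpQ dl dh : ℝ) - (dpQ dl dh : ℝ) ^ 2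
        + (2 - 2 * (dpQ dl dh : ℝ)) * ((d : ℝ) - (dpQ dl dh : ℝ))) ?_ ?_ hc.2
  · push_cast at hv; exact hv
  · have a := entLo_le (show -1 < 1 - 2 * d by linarith) (by linarith)
    push_cast at a ⊢
    linarith
  · have := okR_spec hs0 hs1 hc.1
    push_cast at this ⊢
    exact this

/-- the mode where all `m` are handled from `m = 0` -/
lemma mono_spec (h : okParams p dl dh ma = true) {sl sh : ℚ} (hsl : 0 ≤ sl) (hsh : sh < 1)
    (hsle : sl ≤ sh) (hmono : okMono p dl ma sl = true)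
    (h00 : okZero p dl dh ma dl sl = true) (h10 : okZero p dl dh ma dh sl = true)
    (h01 : okZero p dl dh ma dl sh = true) (h11 : okZero p dl dh ma dh sh = true)
    {m d H : ℝ} (hm : 0 ≤ m) (hd : d ∈ Icc (dl : ℝ) dh) (hmd : m + d < 1)
    (hH : H ∈ Icc (ent sh) (ent sl)) (hH' : H ≤ hbar m d) : ScalarCase gTwo m d H := by
  simp only [okMono, Bool.and_eq_true, decide_eq_true_eq] at hmono
  obtain ⟨⟨⟨rfl, hmp, r0, r1⟩, hr⟩, hq, hq0⟩ := hmono
  obtain ⟨-, -, -, ⟨c0, -⟩, ⟨hC, -, hT, -⟩, ⟨-, hp, dl0, hdd, hdh, -, -⟩⟩ := params_spec h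
  have hsh' : (sh : ℝ) < 1 := by exact_mod_cast hsh
  have hsl' : (0 : ℝ) ≤ (sl : ℝ) := by exact_mod_cast hsl
  have hss : (sl : ℝ) ≤ (sh : ℝ) := by exact_mod_cast hsle
  have hH0 : 0 < H := (ent_pos (by linarith) hsh').trans_le hH.1
  have hdl0 : (0 : ℝ) < (dl : ℝ) := by exact_mod_cast dl0
  have hd0 : 0 < d := hdl0.trans_le hd.1
  have hm1 : m < 1 := by linarith
  have he : 0 < 1 - m ^ 2 := one_sub_sq_pos (by linarith) hm1
  by_cases hflat : log 2 ≤ H / (1 - m ^ 2)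
  · exact ScalarCase_of_flat hm hd0.le hmd hH0 hflat
  rw [not_le] at hflat
  set r := p.rs.getD 0 0
  have rI : (r : ℝ) ∈ Ico (0 : ℝ) 1 := ⟨by exact_mod_cast r0, by exact_mod_cast r1⟩
  have hHr : H / (1 - m ^ 2) ≤ ent r := by
    rcases hr with hr | ⟨-, -, -, hr⟩
    · rw [hr]; push_cast; rw [ent_zero]; exact hflat.le
    · have hr' : (entHi sl : ℝ) / (2 * (dl : ℝ) - (dl : ℝ) ^ 2) ≤ (entLo r : ℝ) := by
        exact_mod_cast hr
      refine le_trans ?_ (hr'.trans (entLo_le (by linarith) r1))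
      have hden : 0 < 2 * (dl : ℝ) - (dl : ℝ) ^ 2 := by nlinarith [hd.1]
      refine div_le_div₀ (le_trans hH0.le (hH.2.trans (le_entHi (by linarith) (by linarith))))
        (hH.2.trans (le_entHi (by linarith) (by linarith))) hden ?_
      nlinarith [hd.1]
  have hsub := gTwo_le_sub hm hm1 hH0 rI hHr
  have hΘ : (thetaLo r : ℝ) ≤ (r : ℝ) * artanh r + kap r * ent r :=
    thetaLo_le r0 r1 (hr.imp id fun h => ⟨h.1, h.2.1, h.2.2.1⟩)
  have hquad : ∀ u : ℝ, 1 / (1 - d ^ 2) ≤ u → 0 ≤ 2 * (p.c : ℝ) * d ^ 2 * u ^ 2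
      - (CQ p dl 0 : ℝ) * u + ((2 * (thetaLo r - TQ p) : ℚ) : ℝ) := by
    intro u hu
    have hle : 1 / (1 - (dl : ℝ) ^ 2) ≤ u := by
      refine le_trans (one_div_le_one_div_of_le (by nlinarith) ?_) hu
      nlinarith [hd.1]
    have ha : 0 ≤ 2 * (p.c : ℝ) * (dl : ℝ) ^ 2 := by
      have : (0 : ℝ) ≤ (p.c : ℝ) := by exact_mod_cast c0
      positivity
    have := quad_nonneg (b := (CQ p dl 0 : ℝ)) (K := ((2 * (thetaLo r - TQ p) : ℚ) : ℝ))
      (u0 := 1 / (1 - (dl : ℝ) ^ 2)) ha (by exact_mod_cast hq) (by exact_mod_cast hq0) hle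
    have : 2 * (p.c : ℝ) * (dl : ℝ) ^ 2 * u ^ 2 ≤ 2 * (p.c : ℝ) * d ^ 2 * u ^ 2 := by
      have : (0 : ℝ) ≤ (p.c : ℝ) := by exact_mod_cast c0
      gcongr
      exact hd.1
    linarith
  have hmono := mono_two hm hd0.le hmd (show (0 : ℝ) ≤ (CQ p dl 0 : ℝ) by exact_mod_cast hC) hquad
  -- the corners at `m = 0`
  have corner : ∀ d' s : ℚ, 0 ≤ d' → d' < 1 → 0 ≤ s → s < 1 → okZero p dl dh 0 d' s = true →
      0 ≤ W (coef p dl dh 0) 0 d' (ent s) (hbar 0 d') 1 := by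
    intro d' s a b a' b' hz
    simp only [okZero, decide_eq_true_eq] at hz
    have hv := W_ge_valQ h a' b' (hbR := hbar 0 d') (gR := 1) ?_ ?_ hz
    · simpa using hv
    · simp [hbar, ent_neg]
      exact entLo_le (by linarith) b
    · rw [div_one, one_mul, curve_ent (by exact_mod_cast a') (by exact_mod_cast b')]
      push_cast
      exact mul_le_mul_of_nonneg_left (le_atHi (by linarith) b') (by exact_mod_cast a')
  have dl1 : dl < 1 := hdd.trans_lt hdh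
  have hW : 0 ≤ W (coef p dl dh 0) 0 d H (hbar 0 d) 1 :=
    W_fixed (q := coef p dl dh 0) (Hl := ent sh) (Hh := ent sl)
      (show (0 : ℝ) ≤ (CQ p dl 0 : ℝ) by exact_mod_cast hC)
      (show (0 : ℝ) ≤ (TQ p : ℝ) by exact_mod_cast hT) le_rfl one_pos hdl0.le
      (by rw [zero_add]; exact_mod_cast hdh.le) (ent_pos (by linarith) hsh')
      (by exact_mod_cast hdd) (ent_strictAntiOn.antitoneOn ⟨hsl', by linarith⟩
        ⟨by linarith, hsh'.le⟩ hss)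
      (corner dl sh dl0.le dl1 (hsl.trans hsle) hsh h01)
      (corner dh sh (dl0.le.trans hdd) hdh (hsl.trans hsle) hsh h11)
      (corner dl sl dl0.le dl1 hsl (hsle.trans_lt hsh) h00)
      (corner dh sl (dl0.le.trans hdd) hdh hsl (hsle.trans_lt hsh) h10) hd hH
  refine le_trans ?_ (rhs_ge h (m := m) (by push_cast; exact hm) hd.1 hmd hH0 hH' le_rfl)
  obtain ⟨hsum, -, -, -, -⟩ := plane_spec h
  have hpl := kerMD_plane (mp := (p.mp : ℝ)) (dp := (dpQ dl dh : ℝ)) (m := 0) (d := d)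
    (by rw [hmp]; simp)
    (by exact_mod_cast (show 0 ≤ dpQ dl dh by rw [dpQ]; linarith)) (by exact_mod_cast hp)
    le_rfl hd0.le (by linarith)
  rw [hsum] at hpl
  have hc : (0 : ℝ) ≤ (p.c : ℝ) := by exact_mod_cast c0
  have h1 := mul_le_mul_of_nonneg_left hpl hc
  have h2 := mul_le_mul_of_nonneg_left hΘ (sq_nonneg m)
  simp only [W, coef, div_one, one_mul, hbar, zero_add, zero_sub, ent_neg] at hW
  simp only [aHQ, TQ, lQ] at hW
  push_cast at hW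
  simp only [TQ] at hmono
  push_cast at hmono
  simp only [hbar, ent, lQ] at hW ⊢
  linarith

/-- a piece is sound -/
lemma piece_spec {sl sh : ℚ} (hsl : 0 ≤ sl) (hsle : sl ≤ sh) (hsh : sh < 1)
    (h : okPiece p dl dh ma sl sh = true) {m d H : ℝ} (hma : (ma : ℝ) ≤ m)
    (hmb : p.kind = 1 → m ≤ (p.mb : ℝ)) (hd : d ∈ Icc (dl : ℝ) dh) (hmd : m + d < 1)
    (hH : H ∈ Icc (ent sh) (ent sl)) (hH' : H ≤ hbar m d) : ScalarCase gTwo m d H := by
  simp only [okPiece, Bool.and_eq_true] at h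
  obtain ⟨hp, h⟩ := h
  obtain ⟨-, -, -, ⟨c0, -⟩, ⟨hC, -, hT, -⟩, ⟨-, -, dl0, hdd, hdh, ma0, -⟩⟩ := params_spec hp
  obtain ⟨-, hKm, -, -, -⟩ := plane_spec hp
  have hma0 : (0 : ℝ) ≤ (ma : ℝ) := by exact_mod_cast ma0
  have hdl0 : (0 : ℝ) < (dl : ℝ) := by exact_mod_cast dl0
  have hddR : (dl : ℝ) ≤ (dh : ℝ) := by exact_mod_cast hdd
  have hsh' : (sh : ℝ) < 1 := by exact_mod_cast hsh
  have hsl' : (0 : ℝ) ≤ (sl : ℝ) := by exact_mod_cast hsl
  have hss : (sl : ℝ) ≤ (sh : ℝ) := by exact_mod_cast hsle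
  have e0 : 0 < ent (sh : ℝ) := ent_pos (by linarith) hsh'
  have eHH : ent (sh : ℝ) ≤ ent sl :=
    ent_strictAntiOn.antitoneOn ⟨hsl', by linarith⟩ ⟨by linarith, hsh'.le⟩ hss
  have hH0 : 0 < H := e0.trans_le hH.1
  have qC : 0 ≤ (coef p dl dh ma).C := show (0 : ℝ) ≤ (CQ p dl ma : ℝ) by exact_mod_cast hC
  have qT : 0 ≤ (coef p dl dh ma).T := show (0 : ℝ) ≤ (TQ p : ℝ) by exact_mod_cast hT
  have qa2 : 0 ≤ (coef p dl dh ma).a2 := mul_nonneg (by exact_mod_cast c0) hKm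
  have fixedM : ∀ (x r0 r1 r4 r5 : ℚ), 0 ≤ x → x + dh < 1 →
      okCorner p dl dh ma x dl sl r0 = true → okCorner p dl dh ma x dh sl r1 = true →
      okCorner p dl dh ma x dl sh r4 = true → okCorner p dl dh ma x dh sh r5 = true →
      0 ≤ W (coef p dl dh ma) x d H (hbar x d) (1 - (x : ℝ) ^ 2) := by
    intro x r0 r1 r4 r5 hx hxd a b c e
    have hx' : (0 : ℝ) ≤ (x : ℝ) := by exact_mod_cast hx
    have hxd' : (x : ℝ) + (dh : ℝ) < 1 := by exact_mod_cast hxd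
    refine W_fixed qC qT hx' (one_sub_sq_pos (by linarith) (by linarith)) hdl0.le hxd'.le
      e0 hddR eHH ?_ ?_ ?_ ?_ hd hH
    · exact corner_spec hp (hsl.trans hsle) hsh hx dl0.le (by linarith) c
    · exact corner_spec hp (hsl.trans hsle) hsh hx (dl0.le.trans hdd) hxd e
    · exact corner_spec hp hsl (hsle.trans_lt hsh) hx dl0.le (by linarith) a
    · exact corner_spec hp hsl (hsle.trans_lt hsh) hx (dl0.le.trans hdd) hxd b
  split at h
  · simp only [Bool.and_eq_true] at h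
    obtain ⟨⟨⟨⟨hm0, h00⟩, h10⟩, h01⟩, h11⟩ := h
    exact mono_spec hp hsl hsh hsle hm0 h00 h10 h01 h11 (hma0.trans hma) hd hmd hH hH'
  · rename_i hk
    simp only [Bool.and_eq_true, decide_eq_true_eq] at h
    obtain ⟨⟨⟨⟨⟨⟨⟨⟨⟨hab, hbd⟩, a0⟩, a1⟩, a2⟩, a3⟩, a4⟩, a5⟩, a6⟩, a7⟩ := h
    have hbd' : (p.mb : ℝ) + (dh : ℝ) < 1 := by exact_mod_cast hbd
    refine case_of_W hp hma hd.1 hmd hH0 hH' (W_mean qC qa2 hma0 ⟨hma, hmb hk⟩
      (hdl0.trans_le hd.1) (by linarith [hd.2]) hH0 ?_ ?_)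
    · exact fixedM ma _ _ _ _ ma0 (by linarith) a0 a1 a4 a5
    · exact fixedM p.mb _ _ _ _ (ma0.trans hab.le) hbd a2 a3 a6 a7
  · simp only [Bool.and_eq_true, decide_eq_true_eq] at h
    obtain ⟨⟨⟨⟨⟨⟨⟨⟨hbd, a0⟩, a1⟩, a2⟩, a3⟩, a4⟩, a5⟩, a6⟩, a7⟩ := h
    refine case_of_W hp hma hd.1 hmd hH0 hH' (W_mean qC qa2 hma0 (mb := 1 - d)
      ⟨hma, by linarith⟩ (hdl0.trans_le hd.1) (by linarith) hH0 ?_ ?_)
    · exact fixedM ma _ _ _ _ ma0 hbd a0 a1 a4 a5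
    · refine W_edge (dp := ((dpQ dl dh : ℚ) : ℝ)) qC qT hdl0 hddR (by exact_mod_cast hdh)
        e0 eHH ?_ hd hH
      rintro X (rfl | rfl) D (rfl | rfl)
      · exact edge_spec hp (hsl.trans hsle) hsh dl0 (hdd.trans_lt hdh) a6
      · exact edge_spec hp (hsl.trans hsle) hsh (dl0.trans_le hdd) hdh a7
      · exact edge_spec hp hsl (hsle.trans_lt hsh) dl0 (hdd.trans_lt hdh) a2
      · exact edge_spec hp hsl (hsle.trans_lt hsh) (dl0.trans_le hdd) hdh a3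
  · simp at h

end sound

lemma chain_spec {sl sh dl dh : ℚ} (hsl : 0 ≤ sl) (hsle : sl ≤ sh) (hsh : sh < 1) {m d H : ℝ}
    (hd : d ∈ Icc (dl : ℝ) dh) (hd0 : 0 ≤ d) (hmd : m + d < 1)
    (hH : H ∈ Icc (ent sh) (ent sl)) (hH' : H ≤ hbar m d) :
    ∀ (ps : List Piece) (ma : ℚ), okChain sl sh dl dh ps ma = true → (ma : ℝ) ≤ m →
      (ps = [] → (ma : ℝ) < m) → ScalarCase gTwo m d H
  | [], ma, h, hma, hlt => by
    exfalso
    simp only [okChain, decide_eq_true_eq] at h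
    obtain ⟨a0, a1, he⟩ := h
    have hma0 : (0 : ℝ) ≤ (ma : ℝ) := by exact_mod_cast a0
    have hm1 : m < 1 := by linarith
    have h1 : hbar m d ≤ ent m := by
      have := ent_combo (θ := 1 / 2) (θ' := 1 / 2) (x := m + d) (y := m - d) (by norm_num)
        (by norm_num) (by norm_num) ⟨by linarith, by linarith⟩ ⟨by linarith, by linarith⟩
      rw [show (1 : ℝ) / 2 * (m + d) + 1 / 2 * (m - d) = m by ring] at this
      unfold hbar; linarith
    have h2 := ent_strictAntiOn ⟨hma0, (by exact_mod_cast a1.le)⟩ ⟨hma0.trans hma, hm1.le⟩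
      (hlt rfl)
    have h3 : (entHi ma : ℝ) ≤ (entLo sh : ℝ) := by exact_mod_cast he
    have h4 := le_entHi (show -1 < ma by linarith) a1
    have h5 := entLo_le (show -1 < sh by linarith) hsh
    linarith [hH.1]
  | p :: ps, ma, h, hma, _ => by
    simp only [okChain, Bool.and_eq_true] at h
    by_cases hk : p.kind = 1 ∧ (p.mb : ℝ) < m
    · rw [if_pos hk.1] at h
      exact chain_spec hsl hsle hsh hd hd0 hmd hH hH' ps p.mb h.2 hk.2.le fun _ => hk.2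
    · exact piece_spec hsl hsle hsh h.1 hma (fun e => not_lt.1 fun l => hk ⟨e, l⟩) hd hmd hH hH'

/-- **Soundness of a leaf.** -/
theorem okLeaf_spec {sl sh dl dh : ℚ} {ps : List Piece} (h : okLeaf sl sh dl dh ps = true)
    {m d s : ℝ} (hm : 0 ≤ m) (hd0 : 0 ≤ d) (hmd : m + d < 1) (hs : s ∈ Icc (sl : ℝ) sh)
    (hd : d ∈ Icc (dl : ℝ) dh) (hH : ent s ≤ (ent (m + d) + ent (m - d)) / 2) :
    ScalarCase gTwo m d (ent s) := by
  simp only [okLeaf, Bool.and_eq_true, decide_eq_true_eq] at h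
  obtain ⟨⟨h0, h1, h2⟩, h⟩ := h
  have hsl : (0 : ℝ) ≤ (sl : ℝ) := by exact_mod_cast h0
  have hsh : (sh : ℝ) < 1 := by exact_mod_cast h2
  have hI : ent s ∈ Icc (ent sh) (ent sl) :=
    ⟨ent_strictAntiOn.antitoneOn ⟨hsl.trans hs.1, by linarith [hs.2]⟩
      ⟨by linarith [hs.1, hs.2], hsh.le⟩ hs.2,
    ent_strictAntiOn.antitoneOn ⟨hsl, by linarith [hs.1, hs.2]⟩
      ⟨hsl.trans hs.1, by linarith [hs.2]⟩ hs.1⟩
  refine chain_spec h0 h1 h2 hd hd0 hmd hI hH ps 0 h (by simpa using hm) fun hnil => ?_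
  subst hnil
  exfalso
  simp only [okChain, decide_eq_true_eq] at h
  have e : (entHi 0 : ℝ) ≤ (entLo sh : ℝ) := by exact_mod_cast h.2.2
  have a := le_entHi (s := 0) (by norm_num) (by norm_num)
  have b := entLo_le (show -1 < sh by linarith) h2
  push_cast at a
  rw [ent_zero] at a
  have hc := ent_le_log_two (show -1 ≤ (sh : ℝ) by linarith [hs.1, hs.2]) hsh.le
  rcases (show (0 : ℝ) ≤ (sh : ℝ) by linarith [hs.1, hs.2]).lt_or_eq with hp | hp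
  · have := ent_strictAntiOn ⟨le_rfl, zero_le_one⟩ ⟨hp.le, hsh.le⟩ hp
    rw [ent_zero] at this
    linarith
  · have : sh = 0 := by exact_mod_cast hp.symm
    subst this
    have : entHi 0 ≤ entLo 0 := h.2.2
    exact absurd this (by decide +kernel)

/-- the check of one box, in the form expected by `Box.okTree` -/
def chkTwo (ps : List Piece) (sl sh dl dh : ℚ) : Bool := okLeaf sl sh dl dh ps

/-- What a box proves at `(s, d)`. -/
def GoalTwo (s d : ℝ) : Prop :=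
  ∀ m : ℝ, 0 ≤ m → 0 ≤ d → m + d < 1 → ent s ≤ (ent (m + d) + ent (m - d)) / 2 →
    ScalarCase gTwo m d (ent s)

/-- **Soundness of a tree of boxes.** -/
theorem okTreeTwo_sound (tbl : List Box.Row) (t : Box.Tree Piece) (sl sh dl dh : ℚ)
    (h : Box.okTree chkTwo tbl t sl sh dl dh = true) (s d : ℝ) (h1 : (sl : ℝ) ≤ s) (h2 : s ≤ sh)
    (h3 : (dl : ℝ) ≤ d) (h4 : d ≤ dh)
    (h5 : ∀ w ∈ tbl, (w.s0 : ℝ) ≤ s → s ≤ w.s1 → d < w.dc) : GoalTwo s d := by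
  refine Box.okTree_sound (Q := GoalTwo) (fun ps sl' sh' dl' dh' hc s' d' a b c e m hm hd hmd hH =>
    okLeaf_spec hc hm hd hmd ⟨a, b⟩ ⟨c, e⟩ hH) tbl t sl sh dl dh h s d h1 h2 h3 h4 h5

end Vale.Agent.P322.BoxTwo
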